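import Vale.Agent.P151.Basic

/-!
# Stretched exponential growth: covering by few hops

Either many points of a finite set are pairwise unrelated, or few points cover it; a covered path is
crossed by three hops for each covering point, and balls are crossed by pieces.
-/

namespace Vale.Agent.P151.Stretched

open Finset

/-- Either `k` pairwise unrelated points, or fewer than `k` points covering everything. -/
theorem exists_spread_or_cover {α : Type} [DecidableEq α] (B : Finset α) (R : α → α → Prop)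
    (hsym : ∀ x y, R x y → R y x) (hrefl : ∀ x ∈ B, R x x) (k : ℕ) :
    (∃ U ⊆ B, U.card = k ∧ ∀ u ∈ U, ∀ v ∈ U, u ≠ v → ¬R u v) ∨
      ∃ U ⊆ B, U.card < k ∧ ∀ x ∈ B, ∃ u ∈ U, R u x := by
  classical
  set F := B.powerset.filter fun U => U.card ≤ k ∧ ∀ u ∈ U, ∀ v ∈ U, u ≠ v → ¬R u v
  obtain ⟨U, hU, hmax⟩ := exists_max_image F Finset.card
    ⟨∅, mem_filter.2 ⟨mem_powerset.2 (empty_subset B), by simp, by simp⟩⟩
  obtain ⟨hUB, hUk, hsep⟩ := mem_filter.1 hU
  rw [mem_powerset] at hUB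
  rcases hUk.lt_or_eq with hlt | heq
  swap
  · exact Or.inl ⟨U, hUB, heq, hsep⟩
  refine Or.inr ⟨U, hUB, hlt, fun x hx => ?_⟩
  by_contra hno
  push Not at hno
  have hxU : x ∉ U := fun h => hno x h (hrefl x hx)
  have hF : insert x U ∈ F := by
    refine mem_filter.2 ⟨mem_powerset.2 (insert_subset hx hUB), ?_, fun u hu v hv hne => ?_⟩
    · rw [card_insert_of_notMem hxU]; omega
    · rcases mem_insert.1 hu with rfl | hu'
      · rcases mem_insert.1 hv with rfl | hv'
        · exact absurd rfl hne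
        · exact fun h => hno v hv' (hsym _ _ h)
      · rcases mem_insert.1 hv with rfl | hv'
        · exact hno u hu'
        · exact hsep u hu' v hv' hne
  have := hmax _ hF
  rw [card_insert_of_notMem hxU] at this
  omega

variable {Γ : Type} [Group Γ] [DecidableEq Γ]

/-- A path covered by translates of `W` is crossed by three hops for each translate. -/
theorem exists_hops (W : Γ → Prop) (hW : ∀ z, W z → W z⁻¹) (x : ℕ → Γ) (r : ℕ)
    (hstep : ∀ i < r, W ((x i)⁻¹ * x (i + 1))) (U : Finset Γ)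
    (hcov : ∀ i ≤ r, ∃ u ∈ U, W (u⁻¹ * x i)) :
    ∃ zs : List Γ, zs.length ≤ 3 * U.card ∧ (∀ z ∈ zs, W z) ∧ zs.prod = (x 0)⁻¹ * x r := by
  classical
  suffices h : ∀ n : ℕ, ∀ U : Finset Γ, U.card = n → ∀ j ≤ r,
      (∀ i, j ≤ i → i ≤ r → ∃ u ∈ U, W (u⁻¹ * x i)) →
      ∃ zs : List Γ, zs.length ≤ 3 * n ∧ (∀ z ∈ zs, W z) ∧ zs.prod = (x j)⁻¹ * x r from
    h _ U rfl 0 (Nat.zero_le r) fun i _ hi => hcov i hi
  intro n
  induction n using Nat.strong_induction_on with
  | _ n ih =>
    intro U hn j hj hc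
    obtain ⟨u, hu, huW⟩ := hc j le_rfl hj
    have hu1 := card_pos.2 ⟨u, hu⟩
    set I := (Finset.Icc j r).filter fun i => W (u⁻¹ * x i) with hI
    obtain ⟨i, hi, hmax⟩ := exists_max_image I id
      ⟨j, mem_filter.2 ⟨mem_Icc.2 ⟨le_rfl, hj⟩, huW⟩⟩
    obtain ⟨hir, hiW⟩ := mem_filter.1 hi
    obtain ⟨hji, hir⟩ := mem_Icc.1 hir
    have h1 : W ((x j)⁻¹ * u) := by simpa using hW _ huW
    rcases hir.lt_or_eq with hlt | heq
    swap
    · subst heq
      refine ⟨[(x j)⁻¹ * u, u⁻¹ * x i], ?_, fun z hz => ?_, ?_⟩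
      · simp only [List.length_cons, List.length_nil]; omega
      · simp only [List.mem_cons, List.not_mem_nil, or_false] at hz
        rcases hz with rfl | rfl <;> assumption
      · simp [mul_assoc]
    obtain ⟨zs, hlen, hzW, hprod⟩ := ih (n - 1) (by omega) (U.erase u)
      (by rw [card_erase_of_mem hu, hn]) (i + 1) hlt fun l hl hlr => by
        obtain ⟨v, hv, hvW⟩ := hc l (by omega) hlr
        refine ⟨v, mem_erase.2 ⟨?_, hv⟩, hvW⟩
        rintro rfl
        have h := hmax l (mem_filter.2 ⟨mem_Icc.2 ⟨by omega, hlr⟩, hvW⟩)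
        simp only [id_eq] at h
        omega
    refine ⟨(x j)⁻¹ * u :: u⁻¹ * x i :: (x i)⁻¹ * x (i + 1) :: zs, ?_, fun z hz => ?_, ?_⟩
    · simp only [List.length_cons]; omega
    · simp only [List.mem_cons] at hz
      rcases hz with rfl | rfl | rfl | hz
      exacts [h1, hiW, hstep i hlt, hzW z hz]
    · simp [hprod, mul_assoc]

variable {S : Finset Γ}

/-- An element of a ball splits along a shortest word. -/
theorem exists_ball_split (a : ℕ) : ∀ (b : ℕ) (v : Γ), v ∈ ball S (a + b) →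
    ∃ x ∈ ball S a, ∃ y ∈ ball S b, x * y = v
  | 0, v, hv => ⟨v, hv, 1, one_mem_ball 0, mul_one v⟩
  | b + 1, v, hv => by
      rw [← Nat.add_assoc, ball, mem_union] at hv
      rcases hv with hv | hv
      · obtain ⟨x, hx, y, hy, e⟩ := exists_ball_split a b v hv
        exact ⟨x, hx, y, ball_mono (Nat.le_succ b) hy, e⟩
      · obtain ⟨⟨z, g⟩, hq, rfl⟩ := mem_image.1 hv
        obtain ⟨hz, hg⟩ := mem_product.1 hq
        obtain ⟨x, hx, y, hy, rfl⟩ := exists_ball_split a b z hz
        exact ⟨x, hx, y * g, mul_mem_ball_succ hy hg, (mul_assoc _ _ _).symm⟩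

/-- If the ball of radius `s` is crossed by `h` hops, larger balls are crossed proportionally. -/
theorem ball_hops (_hS : Gens S) (W : Γ → Prop) {s h : ℕ} (hs : 1 ≤ s)
    (hb : ∀ v ∈ ball S s, ∃ zs : List Γ, zs.length ≤ h ∧ (∀ z ∈ zs, W z) ∧ zs.prod = v) (r : ℕ) :
    ∀ v ∈ ball S r, ∃ zs : List Γ,
      zs.length ≤ h * (r / s + 1) ∧ (∀ z ∈ zs, W z) ∧ zs.prod = v := by
  induction r using Nat.strong_induction_on with
  | _ r ih =>
    intro v hv
    by_cases hr : r ≤ s
    · obtain ⟨zs, h1, h2, h3⟩ := hb v (ball_mono hr hv)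
      exact ⟨zs, h1.trans (Nat.le_mul_of_pos_right h (Nat.succ_pos _)), h2, h3⟩
    rw [show r = s + (r - s) by omega] at hv
    obtain ⟨x, hx, y, hy, rfl⟩ := exists_ball_split s (r - s) v hv
    obtain ⟨zs, h1, h2, h3⟩ := hb x hx
    obtain ⟨ws, g1, g2, g3⟩ := ih (r - s) (by omega) y hy
    refine ⟨zs ++ ws, ?_, fun z hz => (List.mem_append.1 hz).elim (h2 z) (g2 z), ?_⟩
    · rw [List.length_append, show r / s = (r - s) / s + 1 from by
        rw [← Nat.add_div_right _ hs, show r - s + s = r by omega], Nat.mul_add h _ 1, Nat.mul_one]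
      omega
    · rw [List.prod_append, h3, g3]

end Vale.Agent.P151.Stretched
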