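import Vale.Agent.P151.Stretched.Defs
import Vale.Agent.P151.Growth.Local

/-!
# Small clusters of rarely near points are independent
-/

namespace Vale.Agent.P151.Stretched

open Finset Filter Vale.Agent.P165 Vale.Agent.P151.Growth Real

variable {Γ : Type} [Group Γ] [DecidableEq Γ] {S : Finset Γ}

/-- An end of an edge touching the cluster is one step away from it. -/
theorem touch_cls_near (hS : Gens S) {η : Finset (Sym2 Γ)} (hv : Valid S η) {x y : Γ}
    {e : Sym2 Γ} (he : e ∈ touch (nb S) (cls η x)) (hy : y ∈ e) :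
    x⁻¹ * y ∈ ball S (csize η x) := by
  obtain ⟨⟨c, a⟩, hc, rfl⟩ := mem_image.1 he
  have hc' := cls_subset_ball hS hv (mem_product.1 hc).1
  rcases Sym2.mem_iff.1 hy with rfl | rfl
  · exact ball_mono (Nat.sub_le _ _) hc'
  · have := mul_mem_ball_succ hc' a.2
    rw [show x⁻¹ * nb S c a = x⁻¹ * c * a.1 by simp [nb, mul_assoc]]
    have h1 := csize_pos η x
    exact ball_mono (by omega) this

/-- Near clusters start close to each other. -/
theorem Near.ball (hS : Gens S) {N : ℕ} {η : Finset (Sym2 Γ)} (hv : Valid S η) {u v : Γ}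
    (h : Near S N η u v) : u⁻¹ * v ∈ ball S (2 * N) := by
  obtain ⟨h1, h2, h3⟩ := h
  obtain ⟨e, he, he'⟩ := not_disjoint_iff.1 h3
  obtain ⟨y, -, hy⟩ := touch_ends he
  have := mem_ball_add (touch_cls_near hS hv he hy) (inv_mem_ball hS (touch_cls_near hS hv he' hy))
  rw [show u⁻¹ * y * (v⁻¹ * y)⁻¹ = u⁻¹ * v by group] at this
  exact ball_mono (by omega) this

theorem near_shift (g u v : Γ) (N : ℕ) (η : Finset (Sym2 Γ)) :
    Near S N (shift g η) (g * u) (g * v) ↔ Near S N η u v := by
  unfold Near
  rw [csize_shift, csize_shift, cls_shift, cls_shift, touch_image, touch_image, shift, shift,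
    disjoint_image (Sym2.map.injective (mul_right_injective g))]

/-- Nearness is seen in a window around the first point. -/
theorem near_local (hS : Gens S) {η : Finset (Sym2 Γ)} (hv : Valid S η) (u v : Γ) (N : ℕ) :
    Near S N η u v ↔ Near S N (η ∩ eball S u (3 * N + 2)) u v := by
  set B := eball S u (3 * N + 2) with hB
  have hv' : Valid S (η ∩ B) := fun e he => hv e (inter_subset_left he)
  have hu : csize η u ≤ 3 * N + 2 + 1 ∨ csize (η ∩ B) u ≤ 3 * N + 2 + 1 →
      cls η u = cls (η ∩ B) u := fun h => cls_inter hS hv inter_subset_right h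
  have key : u⁻¹ * v ∈ ball S (2 * N) → (csize η v < N ∨ csize (η ∩ B) v < N) →
      cls η v = cls (η ∩ B) v := fun hb h =>
    cls_inter (R := N) hS hv (fun e he => eball_mono hb (by omega) (mem_inter.1 he).2)
      (h.imp (fun h => by omega) fun h => by omega)
  constructor
  · intro h
    have e1 := hu (Or.inl (by have := h.1; omega))
    have e2 := key (h.ball hS hv) (Or.inl h.2.1)
    simpa only [Near, csize, ← e1, ← e2] using h
  · intro h
    have e1 := hu (Or.inr (by have := h.1; omega))
    have e2 := key (h.ball hS hv') (Or.inr h.2.1)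
    simpa only [Near, csize, e1, e2] using h

theorem near_eq (hS : Gens S) (q : ℝ) {N M T : ℕ} {u : Γ} (hu : u ∈ ball S T)
    (hM : T + (3 * N + 2) ≤ M) (z : Γ) :
    avg (eball S 1 M) q (fun η => ind (Near S N η u (u * z))) = near S q N z := by
  set E := eball S (1 : Γ) M with hE
  have hv : Valid S E := valid_eball hS (Subset.refl _)
  have hv' : Valid S (eball S (1 : Γ) (3 * N + 2)) := valid_eball hS (Subset.refl _)
  refine avg_translate (x := u) (y := 1) (R := 3 * N + 2) (eball_one hu hM) (Subset.refl _) q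
    (fun η hη => ind_congr (near_local hS (fun e he => hv e (hη he)) u (u * z) N))
    (fun η hη => ind_congr (near_local hS (fun e he => hv' e (hη he)) 1 z N)) fun η _ => ?_
  have := near_shift (S := S) u 1 z N η
  rw [mul_one] at this
  rw [shift_one]
  exact ind_congr this

theorem near_nonneg {q : ℝ} (h0 : 0 ≤ q) (h1 : q ≤ 1) (N : ℕ) (z : Γ) : 0 ≤ near S q N z :=
  avg_nonneg _ h0 h1 fun _ _ => ind_nonneg _

/-- Only close pairs are near. -/
theorem ball_of_near_pos (hS : Gens S) {q : ℝ} {N : ℕ} {z : Γ} (h : 0 < near S q N z) :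
    z ∈ ball S (2 * N) := by
  by_contra hz
  refine h.ne' ?_
  rw [near, avg_congr _ q (g := fun _ => 0) fun η hη => ind_false fun hn => hz (by
    simpa using hn.ball hS (fun e he => valid_eball hS (Subset.refl _) e (hη he))), avg_const]

theorem near_inv (hS : Gens S) (q : ℝ) {N T : ℕ} {z : Γ} (hz : z ∈ ball S T) :
    near S q N z⁻¹ = near S q N z := by
  have h1 := near_eq hS q (N := N) (M := T + (3 * N + 2)) (u := (1 : Γ))
    (one_mem_ball T) le_rfl z⁻¹
  have h2 := near_eq hS q (N := N) (M := T + (3 * N + 2)) (inv_mem_ball hS hz) le_rfl z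
  rw [one_mul] at h1
  rw [inv_mul_cancel] at h2
  rw [← h1, ← h2]
  exact avg_congr _ q fun η _ => ind_congr ⟨Near.symm, Near.symm⟩

variable (S) in
/-- All clusters are small and no two of them are near. -/
def Spread (N : ℕ) (η : Finset (Sym2 Γ)) (U : Finset Γ) : Prop :=
  (∀ u ∈ U, csize η u < N) ∧ ∀ u ∈ U, ∀ v ∈ U, u ≠ v → ¬Near S N η u v

theorem avg_small (hS : Gens S) {E : Finset (Sym2 Γ)} (hE : Valid S E) {x : Γ} {N : ℕ}
    (hsub : eball S x N ⊆ E) (q : ℝ) :
    avg E q (fun η => ind (csize η x < N)) = 1 - tail S q N := by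
  rw [← tail_eq hS hE hsub q, eq_sub_iff_add_eq, ← avg_add, ← avg_one E q]
  refine avg_congr E q fun η _ => ?_
  by_cases h : csize η x < N
  · rw [ind_true h, ind_false (not_le.2 h), add_zero]
  · rw [ind_false h, ind_true (not_lt.1 h), zero_add]

/-- One more point costs one more factor. -/
theorem spread_insert (hS : Gens S) {E : Finset (Sym2 Γ)} (hE : Valid S E) {q : ℝ} (h0 : 0 ≤ q)
    (h1 : q ≤ 1) {N : ℕ} {a : Γ} {U : Finset Γ} (haU : a ∉ U) :
    avg E q (fun η => ind (Spread S N η (insert a U)))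
      ≤ avg E q (fun η => ind (csize η a < N)) * avg E q (fun η => ind (Spread S N η U)) := by
  classical
  set Cs := E.powerset.image fun η => cls η a with hCs
  have hone : ∀ η, η ⊆ E → ∀ g : ℝ, g = ∑ C ∈ Cs, ind (cls η a = C) * g := by
    intro η hη g
    rw [sum_eq_single_of_mem (cls η a) (mem_image.2 ⟨η, mem_powerset.2 hη, rfl⟩)
      (fun C _ hC => by rw [ind_false fun h => hC h.symm, zero_mul]), ind_true rfl, one_mul]
  rw [avg_congr E q fun η hη => hone η hη _, avg_sum,
    avg_congr E q (f := fun η => ind (csize η a < N)) fun η hη => hone η hη _, avg_sum, sum_mul]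
  refine sum_le_sum fun C _ => ?_
  set A := E ∩ touch (nb S) C with hA
  have hAE : A ⊆ E := inter_subset_left
  set f : Finset (Sym2 Γ) → ℝ := fun ζ => ind (cls ζ a = C) * ind (csize ζ a < N) with hf
  set g : Finset (Sym2 Γ) → ℝ := fun ζ =>
    ind (Spread S N ζ U ∧ ∀ u ∈ U, Disjoint (touch (nb S) (cls ζ u)) A) with hg
  have hfA : ∀ η, η ⊆ E → f (η ∩ A) = ind (cls η a = C) * ind (csize η a < N) := by
    intro η hη
    have hvη : Valid S η := fun e he => hE e (hη he)
    have hvA : Valid S (η ∩ A) := fun e he => hvη e (inter_subset_left he)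
    have eA : η ∩ A ∩ touch (nb S) C = η ∩ touch (nb S) C := by
      rw [hA, ← inter_assoc, inter_eq_left.2 hη, inter_assoc, inter_self]
    by_cases hC : cls η a = C
    · have e : cls (η ∩ A) a = cls η a :=
        cls_congr_touch hS hvη hvA (by rw [hC]; exact eA.symm)
      simp only [hf, csize, e]
    · have : cls (η ∩ A) a ≠ C := fun h =>
        hC (by rw [← h]; exact cls_congr_touch hS hvA hvη (by rw [h]; exact eA))
      simp only [hf, ind_false hC, ind_false this, zero_mul]
  have hgA : ∀ η, η ⊆ E → g (η \ A) ≤ ind (Spread S N η U) := by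
    intro η hη
    refine ind_mono fun h => ?_
    have hvη : Valid S η := fun e he => hE e (hη he)
    have hvA : Valid S (η \ A) := fun e he => hvη e (sdiff_subset he)
    have e : ∀ u ∈ U, cls η u = cls (η \ A) u := fun u hu =>
      cls_congr_touch hS hvA hvη (by
        ext x
        simp only [mem_inter, Finset.mem_sdiff]
        exact ⟨fun hx => ⟨hx.1.1, hx.2⟩,
          fun hx => ⟨⟨hx.1, fun hxA => disjoint_left.1 (h.2 u hu) hx.2 hxA⟩, hx.2⟩⟩)
    refine ⟨fun u hu => ?_, fun u hu v hv hne hn => h.1.2 u hu v hv hne ?_⟩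
    · rw [csize, e u hu]; exact h.1.1 u hu
    · simpa only [Near, csize, e u hu, e v hv] using hn
  have hpt : ∀ η, η ⊆ E →
      ind (cls η a = C) * ind (Spread S N η (insert a U)) ≤ f (η ∩ A) * g (η \ A) := by
    intro η hη
    have n0 : 0 ≤ f (η ∩ A) * g (η \ A) :=
      mul_nonneg (mul_nonneg (ind_nonneg _) (ind_nonneg _)) (ind_nonneg _)
    by_cases hC : cls η a = C
    swap
    · rw [ind_false hC, zero_mul]; exact n0
    by_cases hs : Spread S N η (insert a U)
    swap
    · rw [ind_false hs, mul_zero]; exact n0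
    have hvη : Valid S η := fun e he => hE e (hη he)
    have hvA : Valid S (η \ A) := fun e he => hvη e (sdiff_subset he)
    obtain ⟨hsmall, hfar⟩ := hs
    have hdisj : ∀ u ∈ U, Disjoint (touch (nb S) (cls η u)) (touch (nb S) C) := by
      intro u hu
      by_contra hd
      exact hfar u (mem_insert_of_mem hu) a (mem_insert_self a U) (fun h => haU (h ▸ hu))
        ⟨hsmall u (mem_insert_of_mem hu), hsmall a (mem_insert_self a U), by rwa [hC]⟩
    have e : ∀ u ∈ U, cls (η \ A) u = cls η u := fun u hu =>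
      cls_congr_touch hS hvη hvA (by
        ext x
        simp only [mem_inter, Finset.mem_sdiff]
        exact ⟨fun hx => ⟨⟨hx.1, fun hxA =>
          disjoint_left.1 (hdisj u hu) hx.2 (mem_inter.1 hxA).2⟩, hx.2⟩,
          fun hx => ⟨hx.1.1, hx.2⟩⟩)
    rw [hfA η hη, ind_true hC, ind_true (show csize η a < N from hsmall a (mem_insert_self a U))]
    simp only [hg, one_mul]
    refine ind_mono fun _ => ⟨⟨fun u hu => ?_, fun u hu v hv hne hn => ?_⟩, fun u hu => ?_⟩
    · rw [csize, e u hu]; exact hsmall u (mem_insert_of_mem hu)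
    · refine hfar u (mem_insert_of_mem hu) v (mem_insert_of_mem hv) hne ?_
      simpa only [Near, csize, e u hu, e v hv] using hn
    · rw [e u hu]
      exact (hdisj u hu).mono_right inter_subset_right
  refine (avg_mono E h0 h1 hpt).trans ?_
  rw [avg_split hAE, ← avg_restrict hAE q f, avg_congr E q hfA]
  refine mul_le_mul_of_nonneg_left ?_
    (avg_nonneg E h0 h1 fun _ _ => mul_nonneg (ind_nonneg _) (ind_nonneg _))
  have h := avg_split hAE q (fun _ => (1 : ℝ)) g
  rw [avg_one, one_mul] at h
  rw [← h]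
  exact avg_mono E h0 h1 fun η hη => by rw [one_mul]; exact hgA η hη

theorem spread_le (hS : Gens S) {q : ℝ} (h0 : 0 ≤ q) (h1 : q ≤ 1) {N T M : ℕ} (hM : T + N ≤ M) :
    ∀ U : Finset Γ, U ⊆ ball S T →
      avg (eball S 1 M) q (fun η => ind (Spread S N η U)) ≤ (1 - tail S q N) ^ U.card := by
  intro U
  induction U using Finset.induction_on with
  | empty =>
    intro _
    rw [card_empty, pow_zero]
    exact avg_le_one _ h0 h1 fun _ _ => ind_le_one _
  | @insert a U ha ih =>
    intro hU
    have haT : a ∈ ball S T := hU (mem_insert_self a U)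
    refine (spread_insert hS (valid_eball hS (Subset.refl _)) h0 h1 ha).trans ?_
    rw [avg_small hS (valid_eball hS (Subset.refl _)) (eball_one haT hM), card_insert_of_notMem ha,
      pow_succ']
    exact mul_le_mul_of_nonneg_left (ih ((subset_insert a U).trans hU))
      (sub_nonneg.2 (tail_le_one h0 h1 N))

/-- The clusters of `k` points are all small with probability at most `(1 - t) ^ k`, up to the
chances that two of them are near. -/
theorem all_small_le (hS : Gens S) {q : ℝ} (h0 : 0 ≤ q) (h1 : q ≤ 1) {N T M : ℕ} {U : Finset Γ}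
    (hU : U ⊆ ball S T) (hM : T + (3 * N + 2) ≤ M) :
    avg (eball S 1 M) q (fun η => ind (∀ u ∈ U, csize η u < N))
      ≤ (1 - tail S q N) ^ U.card + ∑ u ∈ U, ∑ v ∈ U.erase u, near S q N (u⁻¹ * v) := by
  set E := eball S (1 : Γ) M
  have hpt : ∀ η, η ⊆ E → ind (∀ u ∈ U, csize η u < N)
      ≤ ind (Spread S N η U) + ∑ u ∈ U, ∑ v ∈ U.erase u, ind (Near S N η u v) := by
    intro η _
    have n0 : 0 ≤ ∑ u ∈ U, ∑ v ∈ U.erase u, ind (Near S N η u v) :=
      sum_nonneg fun _ _ => sum_nonneg fun _ _ => ind_nonneg _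
    by_cases h : ∀ u ∈ U, csize η u < N
    swap
    · rw [ind_false h]; linarith [ind_nonneg (Spread S N η U)]
    rw [ind_true h]
    by_cases hs : ∀ u ∈ U, ∀ v ∈ U, u ≠ v → ¬Near S N η u v
    · rw [ind_true (show Spread S N η U from ⟨h, hs⟩)]; linarith
    push Not at hs
    obtain ⟨u, hu, v, hv, hne, hn⟩ := hs
    have : ind (Near S N η u v) ≤ ∑ u ∈ U, ∑ v ∈ U.erase u, ind (Near S N η u v) :=
      (single_le_sum (f := fun w => ind (Near S N η u w)) (fun _ _ => ind_nonneg _)
        (mem_erase.2 ⟨hne.symm, hv⟩)).trans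
      (single_le_sum (f := fun w => ∑ v ∈ U.erase w, ind (Near S N η w v))
        (fun _ _ => sum_nonneg fun _ _ => ind_nonneg _) hu)
    rw [ind_true hn] at this
    linarith [ind_nonneg (Spread S N η U)]
  refine (avg_mono E h0 h1 hpt).trans ?_
  rw [avg_add, avg_sum]
  refine add_le_add (spread_le hS h0 h1 (by omega) U hU) (le_of_eq (sum_congr rfl fun u hu => ?_))
  rw [avg_sum]
  refine sum_congr rfl fun v _ => ?_
  have := near_eq hS q (N := N) (hU hu) hM (u⁻¹ * v)
  rwa [mul_inv_cancel_left] at this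

/-- The identity and its neighbours are near unless an edge at one of them is open. -/
theorem near_step (hS : Gens S) {q : ℝ} (h0 : 0 ≤ q) (h1 : q ≤ 1) {N : ℕ} (hN : 2 ≤ N)
    (hS0 : S.Nonempty) {z : Γ} (hz : z = 1 ∨ z ∈ S) :
    (1 - q) ^ (2 * S.card) ≤ near S q N z := by
  set F := touch (nb S) ({1, z} : Finset Γ) with hF
  set E := eball S (1 : Γ) (3 * N + 2) with hE
  have hz1 : z ∈ ball S 1 := by
    rcases hz with rfl | hz
    · exact one_mem_ball 1
    · simpa using mul_mem_ball_succ (one_mem_ball (S := S) 0) hz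
  have hFE : F ⊆ E := by
    refine (touch_mono fun w hw => mem_image.2 ⟨w, ?_, one_mul w⟩)
    rcases mem_insert.1 hw with rfl | hw
    · exact one_mem_ball _
    · rw [mem_singleton.1 hw]; exact ball_mono (by omega) hz1
  have hcard : F.card ≤ 2 * S.card := by
    refine card_image_le.trans ?_
    rw [card_product, card_univ, Fintype.card_coe]
    exact Nat.mul_le_mul_right _ ((card_insert_le _ _).trans (by simp))
  have hempty : avg F q (fun ζ => ind (ζ = ∅)) = (1 - q) ^ F.card := by
    rw [avg, sum_eq_single_of_mem ∅ (empty_mem_powerset F)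
      (fun ζ _ hne => by rw [ind_false hne, mul_zero]), ind_true rfl, mul_one]
    simp [wt]
  refine (pow_le_pow_of_le_one (sub_nonneg.2 h1) (by linarith) hcard).trans ?_
  rw [← hempty, ← avg_restrict hFE q, near]
  refine avg_mono E h0 h1 fun η hη => ind_mono fun he => ?_
  have hv : Valid S η := fun e he => valid_eball hS (Subset.refl _) e (hη he)
  have hcl : ∀ w, w ∈ ({1, z} : Finset Γ) → cls η w = {w} := by
    intro w hw
    refine Subset.antisymm (cls_subset_closed (mem_singleton_self w) fun a b ha hne hab => ?_)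
      (singleton_subset_iff.2 (self_mem_cls η w))
    exfalso
    rw [mem_singleton.1 ha] at hab
    have : s(w, b) ∈ η ∩ F := mem_inter.2 ⟨hab, mem_touch_of_end hS hv hw hab⟩
    rw [he] at this
    exact notMem_empty _ this
  have h1' := hcl 1 (mem_insert_self _ _)
  have hz' := hcl z (mem_insert_of_mem (mem_singleton_self z))
  refine ⟨by rw [csize, h1', card_singleton]; omega, by rw [csize, hz', card_singleton]; omega, ?_⟩
  rw [h1', hz', not_disjoint_iff]
  rcases hz with rfl | hzS
  · obtain ⟨a, ha⟩ := hS0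
    have h := mem_touch (nb := nb S) (mem_singleton_self (1 : Γ)) ⟨a, ha⟩
    exact ⟨_, h, h⟩
  · refine ⟨s(1, z), ?_, ?_⟩
    · have := mem_touch (nb := nb S) (mem_singleton_self (1 : Γ)) ⟨z, hzS⟩
      simpa [nb] using this
    · have := mem_touch (nb := nb S) (mem_singleton_self z) ⟨z⁻¹, hS.inv z hzS⟩
      simpa [nb, Sym2.eq_swap] using this

end Vale.Agent.P151.Stretched
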