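import Vale.Agent.P151.Growth.Glue
import Vale.Agent.P151.Growth.Criterion
import Vale.Agent.P151.Stretched.Indep

/-!
# Gluing along a pair of linked small clusters

The witness is the pair of clusters of `u` and `y` in the thinned configuration, joined by at most
one further open edge.  Both are handled by the case analysis for a single small cluster.
-/

namespace Vale.Agent.P151.Stretched

open Finset Filter Vale.Agent.P165 Vale.Agent.P151.Growth

variable {Γ : Type} [Group Γ] [DecidableEq Γ] {S : Finset Γ}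

/-- The small clusters of `u` and `y` coincide or are joined by an open edge. -/
def Linked (η' ξ : Finset (Sym2 Γ)) (u y : Γ) : Prop :=
  y ∈ cls (η' ∩ ξ) u ∨
    ∃ a ∈ cls (η' ∩ ξ) u, ∃ b ∈ cls (η' ∩ ξ) y, a ≠ b ∧ s(a, b) ∈ η'

omit [Group Γ] in
/-- A linked pair forms one connected set of open edges. -/
theorem Linked.conn {E η' ξ : Finset (Sym2 Γ)} {u y : Γ} (h : Linked η' ξ u y) (_hη' : η' ⊆ E) :
    ∃ κ, κ ⊆ η' ∧ cls κ u ⊆ cls (η' ∩ ξ) u ∪ cls (η' ∩ ξ) y ∧
      cls (η' ∩ ξ) u ∪ cls (η' ∩ ξ) y ⊆ cls κ u := by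
  rcases h with h | ⟨a, ha, b, hb, hne, hab⟩
  · refine ⟨η' ∩ ξ, inter_subset_left, subset_union_left, union_subset Subset.rfl ?_⟩
    rw [cls_eq (mem_cls.1 h).symm]
  · refine ⟨insert s(a, b) (η' ∩ ξ), insert_subset hab inter_subset_left, ?_, ?_⟩
    · rw [cls_eq (mem_cls.1 (cls_mono (subset_insert _ _) u ha)), cls_insert hne,
        ← cls_eq (mem_cls.1 ha), ← cls_eq (mem_cls.1 hb)]
    · rw [cls_eq (mem_cls.1 (cls_mono (subset_insert _ _) u ha)), cls_insert hne,
        ← cls_eq (mem_cls.1 ha), ← cls_eq (mem_cls.1 hb)]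

/-- A pair of linked small clusters meets the cluster of `x`, which is apart from that of `u`. -/
def HopMeet (n N : ℕ) (u y x : Γ) (η η' ξ : Finset (Sym2 Γ)) : Prop :=
  Apart n η u x ∧ Linked η' ξ u y ∧ csize (η' ∩ ξ) u ≤ N ∧ csize (η' ∩ ξ) y ≤ N ∧
    ¬Disjoint (cls (η' ∩ ξ) u ∪ cls (η' ∩ ξ) y) (cls η x)

variable (S) in
/-- The three cases at an edge out of the small cluster of `w`. -/
noncomputable def cases3 (E : Finset (Sym2 Γ)) (n m N R : ℕ) (u x w : Γ)
    (η η' ξ : Finset (Sym2 Γ)) : ℝ :=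
  (∑ a ∈ (ball S N).image (w * ·), ∑ s, ind (a ∈ cls (η' ∩ ξ) w ∧ csize (η' ∩ ξ) w ≤ N) *
      ind (Apart n η a (nb S a s)))
  + (∑ a ∈ (ball S N).image (w * ·), ∑ s,
      (ind (Join S m R N a (nb S a s) w (mix S (cls η u) η η') (mix S (cls η u) η' η) ξ)
        + ind (R ≤ csize (mix S (cls η u) η η') (nb S a s))))
  + (∑ a ∈ (ball S N).image (w * ·), ∑ s, ∑ f ∈ E,
      ind (f ∉ mix S (cls η u ∪ cls η x) η η') *
        ind (Cut S n m R N a (nb S a s) w f (insert f (mix S (cls η u ∪ cls η x) η η'))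
          (mix S (cls η u ∪ cls η x) η' η) ξ))

/-- The three cases for a pair of linked small clusters. -/
theorem hop_pointwise (hS : Gens S) {E η η' ξ : Finset (Sym2 Γ)} (hE : Valid S E) (hη : η ⊆ E)
    (hη' : η' ⊆ E) {n m N R : ℕ} (hmn : m ≤ n) {u x y : Γ} :
    ind (HopMeet n N u y x η η' ξ) ≤
      cases3 S E n m N R u x u η η' ξ + cases3 S E n m N R u x y η η' ξ
        + (ind (R ≤ csize η u) + ind (R ≤ csize η x)) := by
  have n0 : ∀ w, 0 ≤ cases3 S E n m N R u x w η η' ξ := fun w => add_nonneg (add_nonneg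
    (sum_nonneg fun a _ => sum_nonneg fun t _ => mul_nonneg (ind_nonneg _) (ind_nonneg _))
    (sum_nonneg fun a _ => sum_nonneg fun t _ => add_nonneg (ind_nonneg _) (ind_nonneg _)))
    (sum_nonneg fun a _ => sum_nonneg fun t _ => sum_nonneg fun g _ =>
      mul_nonneg (ind_nonneg _) (ind_nonneg _))
  have n4 := ind_nonneg (R ≤ csize η u)
  have n5 := ind_nonneg (R ≤ csize η x)
  by_cases hM : HopMeet n N u y x η η' ξ
  swap
  · rw [ind_false hM]; linarith [n0 u, n0 y]
  rw [ind_true hM]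
  by_cases hRu : R ≤ csize η u
  · rw [ind_true hRu]; linarith [n0 u, n0 y]
  by_cases hRx : R ≤ csize η x
  · rw [ind_true hRx]; linarith [n0 u, n0 y]
  obtain ⟨⟨hxu, hnu, hnx⟩, hlink, hNu, hNy, hmeet⟩ := hM
  obtain ⟨κ, hκη', hκW, hWκ⟩ := hlink.conn hη'
  obtain ⟨z, hzW, hzx⟩ := not_disjoint_iff.1 hmeet
  replace hzW : z ∈ cls κ u := hWκ hzW
  have hv : Valid S η := fun e he => hE e (hη he)
  have hv' : Valid S η' := fun e he => hE e (hη' he)
  have hdisj : ∀ c, c ∈ cls η x → c ∉ cls η u := fun c hc hcu => hxu (by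
    rw [← cls_eq_left hcu, cls_eq_left hc]; exact self_mem_cls η x)
  obtain ⟨wk⟩ := mem_cls.1 hzW
  rcases last_exit (D := touch (nb S) (cls η u)) (↑(cls η u) : Set Γ) (fun e he => touch_ends he) wk
    (fun h => hdisj z hzx h) with h | ⟨a, b, ha, hb, hne, hab, hbz⟩
  · exact absurd (self_mem_cls η u) h.1
  have ha : a ∈ cls η u := ha
  have hb : b ∉ cls η u := hb
  obtain ⟨w, hw, haW⟩ : ∃ w, (w = u ∨ w = y) ∧ a ∈ cls (η' ∩ ξ) w := by
    have : a ∈ cls κ u := mem_cls.2
      ((mem_cls.1 hzW).trans ((cl_mono sdiff_subset hbz).symm.trans (cl_edge hne hab).symm))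
    rcases mem_union.1 (hκW this) with h | h
    exacts [⟨u, Or.inl rfl, h⟩, ⟨y, Or.inr rfl, h⟩]
  have hN : csize (η' ∩ ξ) w ≤ N := by rcases hw with rfl | rfl <;> assumption
  suffices hone : 1 ≤ cases3 S E n m N R u x w η η' ξ by
    rcases hw with rfl | rfl
    · linarith [n0 y]
    · linarith [n0 u]
  set U := (ball S N).image (w * ·) with hU
  set X1 := ∑ a ∈ U, ∑ s, ind (a ∈ cls (η' ∩ ξ) w ∧ csize (η' ∩ ξ) w ≤ N) *
    ind (Apart n η a (nb S a s)) with hX1
  set X2 := ∑ a ∈ U, ∑ s,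
    (ind (Join S m R N a (nb S a s) w (mix S (cls η u) η η') (mix S (cls η u) η' η) ξ)
      + ind (R ≤ csize (mix S (cls η u) η η') (nb S a s))) with hX2
  set X3 := ∑ a ∈ U, ∑ s, ∑ f ∈ E, ind (f ∉ mix S (cls η u ∪ cls η x) η η') *
    ind (Cut S n m R N a (nb S a s) w f (insert f (mix S (cls η u ∪ cls η x) η η'))
      (mix S (cls η u ∪ cls η x) η' η) ξ) with hX3
  show 1 ≤ X1 + X2 + X3
  have i1 : ∀ a ∈ U, ∀ s, ind (a ∈ cls (η' ∩ ξ) w ∧ csize (η' ∩ ξ) w ≤ N) *
      ind (Apart n η a (nb S a s)) ≤ X1 := fun a ha s =>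
    le_sum2 (g := fun b t => ind (b ∈ cls (η' ∩ ξ) w ∧ csize (η' ∩ ξ) w ≤ N) *
      ind (Apart n η b (nb S b t))) (fun _ _ => mul_nonneg (ind_nonneg _) (ind_nonneg _)) ha s
  have i2 : ∀ a ∈ U, ∀ s,
      ind (Join S m R N a (nb S a s) w (mix S (cls η u) η η') (mix S (cls η u) η' η) ξ)
        + ind (R ≤ csize (mix S (cls η u) η η') (nb S a s)) ≤ X2 := fun a ha s =>
    le_sum2 (g := fun b t =>
      ind (Join S m R N b (nb S b t) w (mix S (cls η u) η η') (mix S (cls η u) η' η) ξ)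
        + ind (R ≤ csize (mix S (cls η u) η η') (nb S b t)))
      (fun _ _ => add_nonneg (ind_nonneg _) (ind_nonneg _)) ha s
  have i3 : ∀ a ∈ U, ∀ s, ∀ f ∈ E, ind (f ∉ mix S (cls η u ∪ cls η x) η η') *
      ind (Cut S n m R N a (nb S a s) w f (insert f (mix S (cls η u ∪ cls η x) η η'))
        (mix S (cls η u ∪ cls η x) η' η) ξ) ≤ X3 := fun a ha s f hf =>
    (single_le_sum (f := fun g => ind (g ∉ mix S (cls η u ∪ cls η x) η η') *
      ind (Cut S n m R N a (nb S a s) w g (insert g (mix S (cls η u ∪ cls η x) η η'))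
        (mix S (cls η u ∪ cls η x) η' η) ξ))
      (fun g _ => mul_nonneg (ind_nonneg _) (ind_nonneg _)) hf).trans
      (le_sum2 (g := fun b t => ∑ g ∈ E, ind (g ∉ mix S (cls η u ∪ cls η x) η η') *
        ind (Cut S n m R N b (nb S b t) w g (insert g (mix S (cls η u ∪ cls η x) η η'))
          (mix S (cls η u ∪ cls η x) η' η) ξ))
        (fun _ _ => sum_nonneg fun g _ => mul_nonneg (ind_nonneg _) (ind_nonneg _)) ha s)
  have n1 : 0 ≤ X1 := sum_nonneg fun a _ => sum_nonneg fun t _ =>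
    mul_nonneg (ind_nonneg _) (ind_nonneg _)
  have n2 : 0 ≤ X2 := sum_nonneg fun a _ => sum_nonneg fun t _ =>
    add_nonneg (ind_nonneg _) (ind_nonneg _)
  have n3 : 0 ≤ X3 := sum_nonneg fun a _ => sum_nonneg fun t _ => sum_nonneg fun g _ =>
    mul_nonneg (ind_nonneg _) (ind_nonneg _)
  have haU : a ∈ U := mem_image.2 ⟨w⁻¹ * a, ball_mono (by omega)
    (cls_subset_ball hS (fun e he => hv' e (inter_subset_left he)) haW), mul_inv_cancel_left w a⟩
  obtain ⟨s, rfl⟩ := (hS.labelling.adj a b).1 (hv' _ (hκη' hab))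
  set b := nb S a s with hbdef
  have eau : cls η a = cls η u := cls_eq_left ha
  by_cases hbx : b ∈ cls η x
  · have hap : Apart n η a b := ⟨eau.symm ▸ hb, by rw [csize, eau]; exact hnu,
      by rw [csize, cls_eq_left hbx]; exact hnx⟩
    have := i1 a haU s
    rw [ind_true (show a ∈ cls (η' ∩ ξ) w ∧ csize (η' ∩ ξ) w ≤ N from ⟨haW, hN⟩), ind_true hap,
      one_mul] at this
    linarith
  have eW : cls (η' ∩ ξ) a = cls (η' ∩ ξ) w := cls_eq_left haW
  obtain ⟨w2⟩ := hbz.symm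
  rcases last_exit (D := touch (nb S) (cls η x)) (↑(cls η x) : Set Γ) (fun e he => touch_ends he) w2
    (fun h => hbx h) with h | ⟨c, d, hc, hd, hcd, hf, hdb⟩
  · exact absurd hzx h.1
  have hc : c ∈ cls η x := hc
  have hd : d ∉ cls η x := hd
  set Z := cls η u ∪ cls η x with hZ
  set C := cls (η' \ touch (nb S) Z) b with hC
  by_cases hbig : m ≤ C.card
  · -- the cluster behind the edge is large
    set α := mix S (cls η u) η η' with hα
    have eα : cls α a = cls η u := by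
      rw [cls_eq_left (show a ∈ cls α u by rw [cls_mix hS hv hv' Subset.rfl]; exact ha),
        cls_mix hS hv hv' Subset.rfl]
    have hsub : η' \ touch (nb S) Z ⊆ α := fun e he => mem_mix.2 (Or.inr ⟨(mem_sdiff.1 he).1,
      fun h => (mem_sdiff.1 he).2 (touch_mono subset_union_left h)⟩)
    have := i2 a haU s
    by_cases hRb : R ≤ csize α b
    · rw [ind_true hRb] at this
      have := ind_nonneg (Join S m R N a b w α (mix S (cls η u) η' η) ξ)
      linarith
    have hsp : Split m (2 * R) α a b := by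
      refine ⟨eα.symm ▸ hb, ?_, hbig.trans (card_le_card (cls_mono hsub b)), ?_⟩
      · rw [csize, eα]; exact hmn.trans hnu
      · have : csize α a = csize η u := congrArg Finset.card eα
        omega
    have hseen : Seen S N (cls α a) a w α (mix S (cls η u) η' η) ξ := by
      unfold Seen
      rw [eα, hα, mix_mix_left]
      unfold csize
      rw [eW]
      exact ⟨self_mem_cls _ w, hN⟩
    rw [ind_true (show Join S m R N a b w α (mix S (cls η u) η' η) ξ from ⟨hsp, hseen⟩)] at this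
    have := ind_nonneg (R ≤ csize α b)
    linarith
  -- reopen the edge `f`
  set α := mix S Z η η' with hα
  set f := s(c, d) with hfdef
  have hfη' : f ∈ η' := hκη' (mem_sdiff.1 hf).1
  have hfu : f ∉ touch (nb S) (cls η u) := (mem_sdiff.1 hf).2
  have hdu : d ∉ cls η u := fun h => hfu (by
    rw [hfdef, Sym2.eq_swap] at hfη' ⊢; exact mem_touch_of_end hS hv' h hfη')
  have hsub : η' \ touch (nb S) Z ⊆ α := fun e he =>
    mem_mix.2 (Or.inr ⟨(mem_sdiff.1 he).1, (mem_sdiff.1 he).2⟩)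
  have hdC : d ∈ C := by
    refine mem_cls.2 (cl_mono (fun e he => ?_) hdb).symm
    obtain ⟨⟨he1, he2⟩, he3⟩ := (by simpa only [Finset.mem_sdiff, and_assoc] using he :
      (e ∈ κ ∧ e ∉ touch (nb S) (cls η u)) ∧ e ∉ touch (nb S) (cls η x))
    refine mem_sdiff.2 ⟨hκη' he1, fun h => ?_⟩
    rw [hZ, touch_union, mem_union] at h
    exact h.elim he2 he3
  have hdb' : d ∈ cls α b := cls_mono hsub b hdC
  have hclosed : cls α b ⊆ C.filter (· ∉ Z) := by
    refine cls_subset_closed (mem_filter.2 ⟨self_mem_cls _ b, fun h =>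
      (mem_union.1 h).elim hb hbx⟩) fun g k hg hgk hgkα => ?_
    obtain ⟨hgC, hgZ⟩ := mem_filter.1 hg
    rcases mem_mix.1 hgkα with ⟨he, ht⟩ | ⟨he, ht⟩
    · obtain ⟨v, hvZ, hve⟩ := touch_ends ht
      rcases Sym2.mem_iff.1 hve with rfl | rfl
      · exact absurd hvZ hgZ
      refine absurd ?_ hgZ
      rw [Sym2.eq_swap] at he
      exact (mem_union.1 hvZ).elim (fun h => mem_union_left _ (cls_step h hgk.symm he))
        fun h => mem_union_right _ (cls_step h hgk.symm he)
    · refine mem_filter.2 ⟨cls_step hgC hgk (mem_sdiff.2 ⟨he, ht⟩), fun h => ht ?_⟩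
      rw [Sym2.eq_swap] at he ⊢
      exact mem_touch_of_end hS hv' h he
  have hαb : csize α b < m := by
    have := card_le_card (hclosed.trans (filter_subset _ _))
    unfold csize; omega
  have hcb : c ∉ cls α b := fun h => (mem_filter.1 (hclosed h)).2 (mem_union_right _ hc)
  have hva : Valid S α := fun e he => hE e (mix_subset hη hη' he)
  have eu : cls α u = cls η u := cls_mix hS hv hv' subset_union_left
  have ex : cls α x = cls η x := cls_mix hS hv hv' subset_union_right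
  have ea : cls α a = cls η u := (cls_eq_left (eu.symm ▸ ha)).trans eu
  have ec : cls α c = cls η x := (cls_eq_left (ex.symm ▸ hc)).trans ex
  have hfα : f ∉ α := fun h => by
    rcases mem_mix.1 h with ⟨he, -⟩ | ⟨-, ht⟩
    · exact hd (cls_step hc hcd he)
    · exact ht (touch_mono subset_union_right (mem_touch_of_end hS hv' hc hfη'))
  set α' := insert f α with hα'
  have hva' : Valid S α' := fun e he => by
    rcases mem_insert.1 he with rfl | h
    · exact hv' _ hfη'
    · exact hva e h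
  have ea' : cls α' a = cls η u := by
    rw [← ea]
    refine cls_congr_touch hS hva hva' ?_
    rw [ea, hα', insert_inter_of_notMem hfu]
  have eb' : cls α' b = cls α b ∪ cls η x := by
    rw [cls_eq (mem_cls.1 (cls_mono (subset_insert f α) b hdb')), hfdef, Sym2.eq_swap,
      cls_insert hcd.symm, ← cls_eq (mem_cls.1 hdb'), ec]
  have hsp : Split n (4 * R) α' a b := by
    refine ⟨ea'.symm ▸ hb, by rw [csize, ea']; exact hnu, ?_, ?_⟩
    · rw [csize, eb']; exact hnx.trans (card_le_card subset_union_right)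
    · rw [csize, csize, ea', eb']
      have := card_union_le (cls α b) (cls η x)
      unfold csize at hαb hRu hRx hnu
      omega
  have eo : outer α f b = cls η x := by
    rw [hfdef, Sym2.eq_swap, outer_eq hdb' hcb, ec]
  have hcut : Cut S n m R N a b w f α' (mix S Z η' η) ξ := by
    refine ⟨mem_insert_self _ _, hsp, ?_⟩
    rw [hα', erase_insert hfα]
    refine ⟨hαb, ?_⟩
    unfold Seen
    rw [ea, eo, ← hZ, hα, mix_mix_left]
    unfold csize
    rw [eW]
    exact ⟨self_mem_cls _ w, hN⟩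
  have := i3 a haU s f (hη' hfη')
  rw [ind_true hfα, one_mul, ind_true hcut] at this
  linarith


/-- The expected number of cases at the small cluster of `w`. -/
theorem cases3_le (hS : Gens S) {p r : ℝ} (h0 : 0 < p) (h1 : p < 1) (r0 : 0 ≤ r) (r1 : r ≤ 1)
    {n m N R M T : ℕ} (hm : 1 ≤ m) (hmn : 2 * m ≤ n) (u x : Γ) {w : Γ} (hw : w ∈ ball S T)
    (hM : T + N + (4 * R + N + 1) + 1 ≤ M) {B : ℝ}
    (hB : ∀ v ∈ ball S (T + N), ∀ s : {a // a ∈ S},
      avg (eball S 1 M) p (fun η => ind (Apart n η v (nb S v s))) ≤ B) (hB0 : 0 ≤ B) :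
    avg3 (eball S 1 M) p r (fun η η' ξ => cases3 S (eball S 1 M) n m N R u x w η η' ξ)
      ≤ S.card * (N * B) + S.card * (N * ghostB S p m)
        + (1 - p) / p * (S.card * (m * (N * ghostB S p n)))
        + S.card * (ball S N).card * tail S p R := by
  set E := eball S (1 : Γ) M with hE
  have hv : Valid S E := valid_eball hS Subset.rfl
  set U := (ball S N).image (w * ·) with hU
  have hUT : ∀ a ∈ U, a ∈ ball S (T + N) := fun a ha => by
    obtain ⟨g, hg, rfl⟩ := mem_image.1 ha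
    exact mem_ball_add hw hg
  have hcardU : U.card = (ball S N).card := card_image_of_injective _ (mul_right_injective w)
  simp only [cases3, ← hU]
  rw [avg3_add, avg3_add,
    avg3_swap E p r (fun η => cls η u) (fun η η' hη hη' => cls_mix hS (fun e he => hv e (hη he))
      (fun e he => hv e (hη' he)) Subset.rfl)
      (fun α β ξ => ∑ a ∈ U, ∑ s, (ind (Join S m R N a (nb S a s) w α β ξ)
        + ind (R ≤ csize α (nb S a s)))),
    avg3_swap E p r (fun η => cls η u ∪ cls η x) (fun η η' hη hη' => by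
      have hh := fun (z : Γ) (h : cls η z ⊆ cls η u ∪ cls η x) => cls_mix hS
        (fun e he => hv e (hη he)) (fun e he => hv e (hη' he)) (η := η) (η' := η') h
      rw [hh u subset_union_left, hh x subset_union_right])
      (fun α β ξ => ∑ a ∈ U, ∑ s, ∑ f ∈ E,
        ind (f ∉ α) * ind (Cut S n m R N a (nb S a s) w f (insert f α) β ξ))]
  have b1 : avg3 E p r (fun η η' ξ => ∑ a ∈ U, ∑ s,
      ind (a ∈ cls (η' ∩ ξ) w ∧ csize (η' ∩ ξ) w ≤ N) * ind (Apart n η a (nb S a s)))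
      ≤ S.card * (N * B) := by
    set π := fun a => avg E p fun η' => avg E r fun ξ =>
      ind (a ∈ cls (η' ∩ ξ) w ∧ csize (η' ∩ ξ) w ≤ N)
    have e : ∀ a s, avg3 E p r (fun η η' ξ => ind (a ∈ cls (η' ∩ ξ) w ∧ csize (η' ∩ ξ) w ≤ N)
        * ind (Apart n η a (nb S a s)))
        = π a * avg E p (fun η => ind (Apart n η a (nb S a s))) := by
      intro a s
      rw [← avg_mul]
      refine avg_congr E p fun η _ => ?_
      simp only [π, mul_comm _ (ind (Apart n η a (nb S a s))), avg_mul]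
    simp only [avg3_sum, e]
    have hπ : ∑ a ∈ U, π a ≤ N := by
      simp only [π, ← avg_sum]
      refine (avg_mono E h0.le h1.le fun η' _ => avg_mono E r0 r1 fun ξ _ =>
        (sum_ind_mem U (φ := id) (P := True) Function.injective_id
          fun a _ h => ⟨trivial, h⟩).trans_eq (by rw [ind_true trivial, mul_one])).trans_eq ?_
      simp [avg_const]
    calc _ ≤ ∑ a ∈ U, ∑ _s : {a // a ∈ S}, π a * B :=
          sum_le_sum fun a ha => sum_le_sum fun s _ => mul_le_mul_of_nonneg_left (hB a (hUT a ha) s)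
            (avg_nonneg _ h0.le h1.le fun _ _ => avg_nonneg _ r0 r1 fun _ _ => ind_nonneg _)
      _ = S.card * ((∑ a ∈ U, π a) * B) := by
          rw [sum_comm, sum_const, card_univ, Fintype.card_coe, nsmul_eq_mul, sum_mul]
      _ ≤ S.card * (N * B) :=
          mul_le_mul_of_nonneg_left (mul_le_mul_of_nonneg_right hπ hB0) (Nat.cast_nonneg _)
  have b2 : avg3 E p r (fun α β ξ => ∑ a ∈ U, ∑ s, (ind (Join S m R N a (nb S a s) w α β ξ)
      + ind (R ≤ csize α (nb S a s))))
      ≤ S.card * (N * ghostB S p m) + S.card * (ball S N).card * tail S p R := by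
    simp only [avg3_sum, avg3_add, avg3_fst, sum_add_distrib]
    refine add_le_add ?_ (le_of_eq ?_)
    · rw [sum_comm]
      refine (sum_le_sum fun s _ => join_sum hS h0 h1 r0 r1 hm hw (by omega) s).trans_eq ?_
      rw [sum_const, card_univ, Fintype.card_coe, nsmul_eq_mul]
    · have ht : ∀ a ∈ U, ∀ s : {a // a ∈ S},
          avg E p (fun η => ind (R ≤ csize η (nb S a s))) = tail S p R := fun a ha s =>
        tail_eq hS hv (show eball S (nb S a s) R ⊆ E from
          eball_one (mul_mem_ball_succ (hUT a ha) s.2) (by omega)) p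
      rw [sum_congr rfl fun a ha => sum_congr rfl fun s _ => ht a ha s]
      simp only [sum_const, card_univ, Fintype.card_coe, nsmul_eq_mul, hcardU]
      ring
  have b3 : avg3 E p r (fun α β ξ => ∑ a ∈ U, ∑ s, ∑ f ∈ E,
      ind (f ∉ α) * ind (Cut S n m R N a (nb S a s) w f (insert f α) β ξ))
      ≤ (1 - p) / p * (S.card * (m * (N * ghostB S p n))) := by
    have hc : 0 ≤ (1 - p) / p := div_nonneg (sub_nonneg.2 h1.le) h0.le
    have e : ∀ a s, avg3 E p r (fun α β ξ => ∑ f ∈ E,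
        ind (f ∉ α) * ind (Cut S n m R N a (nb S a s) w f (insert f α) β ξ))
        ≤ (1 - p) / p * avg3 E p r (fun α β ξ => ∑ f ∈ E, ind (Cut S n m R N a (nb S a s) w f α β ξ)) := by
      intro a s
      simp only [avg3, avg_sum, avg_mul]
      rw [← avg_sum, avg_open E h0 fun f α => avg E p fun β => avg E r fun ξ =>
        ind (Cut S n m R N a (nb S a s) w f α β ξ), avg_sum]
      refine mul_le_mul_of_nonneg_left (sum_le_sum fun f _ => avg_mono E h0.le h1.le fun α _ => ?_) hc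
      exact mul_le_of_le_one_left (avg_nonneg _ h0.le h1.le fun _ _ =>
        avg_nonneg _ r0 r1 fun _ _ => ind_nonneg _) (ind_le_one _)
    simp only [avg3_sum _ _ _ U, avg3_sum _ _ _ (univ : Finset {a // a ∈ S})]
    refine (sum_le_sum fun a _ => sum_le_sum fun s _ => e a s).trans ?_
    rw [sum_comm]
    simp only [← mul_sum]
    refine mul_le_mul_of_nonneg_left ?_ hc
    refine (sum_le_sum fun s _ => cut_sum hS h0 h1 r0 r1 hm hmn hw (by omega) s).trans_eq ?_
    rw [sum_const, card_univ, Fintype.card_coe, nsmul_eq_mul]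
  linarith

/-- The probability that a linked pair meets the cluster of `x`. -/
theorem hop_meet_le (hS : Gens S) {p r : ℝ} (h0 : 0 < p) (h1 : p < 1) (r0 : 0 ≤ r) (r1 : r ≤ 1)
    {n m N R M T : ℕ} (hm : 1 ≤ m) (hmn : 2 * m ≤ n) {u x y : Γ} (hu : u ∈ ball S T)
    (hy : y ∈ ball S T) (hx : x ∈ ball S T) (hM : T + N + (4 * R + N + 1) + 1 ≤ M) {B : ℝ}
    (hB : ∀ v ∈ ball S (T + N), ∀ s : {a // a ∈ S},
      avg (eball S 1 M) p (fun η => ind (Apart n η v (nb S v s))) ≤ B) (hB0 : 0 ≤ B) :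
    avg3 (eball S 1 M) p r (fun η η' ξ => ind (HopMeet n N u y x η η' ξ))
      ≤ 2 * (S.card * (N * B) + S.card * (N * ghostB S p m)
        + (1 - p) / p * (S.card * (m * (N * ghostB S p n)))
        + (S.card * (ball S N).card + 1) * tail S p R) := by
  have hv : Valid S (eball S (1 : Γ) M) := valid_eball hS Subset.rfl
  refine (avg3_mono _ h0.le h1.le r0 r1 fun η η' ξ hη hη' _ =>
    hop_pointwise hS (R := R) (m := m) hv hη hη' (by omega)).trans ?_
  rw [avg3_add, avg3_add, avg3_add, avg3_fst, avg3_fst, tail_eq hS hv (eball_one hu (by omega)),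
    tail_eq hS hv (eball_one hx (by omega))]
  linarith [cases3_le hS (r := r) h0 h1 r0 r1 hm hmn u x hu hM hB hB0,
    cases3_le hS (r := r) h0 h1 r0 r1 hm hmn u x hy hM hB hB0]

variable (S) in
/-- Two small clusters that coincide or are adjacent. -/
def NearPair (N : ℕ) (η : Finset (Sym2 Γ)) (u y : Γ) : Prop :=
  (y ∈ cls η u ∨ ∃ a ∈ cls η u, ∃ b ∈ cls η y, (cayley S).Adj a b) ∧
    csize η u ≤ N ∧ csize η y ≤ N

/-- An edge closed after thinning is open before it with probability `(p - q) / (1 - q)`. -/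
theorem thin_open {α : Type} [DecidableEq α] {E : Finset α} {f : α} (hf : f ∈ E) {p r : ℝ}
    (G : Finset α → ℝ) (hG : ∀ ζ, f ∈ ζ → G ζ = 0) :
    (1 - p * r) * avg E p (fun η => avg E r fun ξ => G (η ∩ ξ) * ind (f ∈ η))
      = p * (1 - r) * avg E (p * r) G := by
  set E' := E.erase f with hE'
  have hfE : f ∉ E' := notMem_erase f E
  have e1 : avg E (p * r) G = (1 - p * r) * avg E' (p * r) G := by
    rw [avg_edge hf, ← hE', avg_congr E' (p * r) (g := fun _ => 0) fun η _ =>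
      hG _ (mem_insert_self f η), avg_const]
    ring
  have e2 : avg E p (fun η => avg E r fun ξ => G (η ∩ ξ) * ind (f ∈ η))
      = p * (1 - r) * avg E' (p * r) G := by
    rw [avg_edge hf, ← hE']
    have z : avg E' p (fun η => avg E r fun ξ => G (η ∩ ξ) * ind (f ∈ η)) = 0 := by
      rw [avg_congr E' p (g := fun _ => 0) fun η hη => ?_, avg_const]
      rw [avg_congr E r (g := fun _ => 0) fun ξ _ => by
        rw [ind_false fun h => hfE (hη h), mul_zero], avg_const]
    rw [z, mul_zero, add_zero, mul_assoc, ← avg_thin E' p r G, ← avg_mul (c := 1 - r)]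
    refine congrArg (p * ·) (avg_congr E' p fun η hη => ?_)
    rw [avg_edge hf, ← hE', avg_congr E' r (g := fun _ => 0) fun ξ _ => ?_, avg_const,
      avg_congr E' r (f := fun ξ => G (insert f η ∩ ξ) * ind (f ∈ insert f η))
        (g := fun ξ => G (η ∩ ξ)) fun ξ hξ => ?_]
    · ring
    · rw [ind_true (mem_insert_self f η), mul_one, insert_inter_of_notMem fun h => hfE (hξ h)]
    · rw [hG _ (mem_inter.2 ⟨mem_insert_self f η, mem_insert_self f ξ⟩), zero_mul]
  rw [e1, e2]
  ring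

/-- Linked pairs are likely if near pairs of the thinned configuration are. -/
theorem near_le_linked (hS : Gens S) {E : Finset (Sym2 Γ)} {p r : ℝ} (h0 : 0 ≤ p)
    (h1 : p ≤ 1) (r0 : 0 ≤ r) (r1 : r ≤ 1) (N : ℕ) (u y : Γ)
    (hloc : ∀ ζ, ζ ⊆ E → csize ζ u ≤ N → touch (nb S) (cls ζ u) ⊆ E) :
    p * (1 - r) * avg E (p * r) (fun ζ => ind (NearPair S N ζ u y))
      ≤ avg E p fun η => avg E r fun ξ =>
          ind (Linked η ξ u y ∧ csize (η ∩ ξ) u ≤ N ∧ csize (η ∩ ξ) y ≤ N) := by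
  classical
  let P : Finset (Sym2 Γ) → Prop := fun ζ => ∃ f ∈ E, ∃ a ∈ cls ζ u, ∃ b ∈ cls ζ y,
    a ≠ b ∧ f = s(a, b) ∧ f ∉ ζ
  let G : Sym2 Γ → Finset (Sym2 Γ) → ℝ := fun f ζ =>
    if h : P ζ then ind (h.choose = f ∧ y ∉ cls ζ u ∧ csize ζ u ≤ N ∧ csize ζ y ≤ N) else 0
  set J : Finset (Sym2 Γ) → ℝ := fun ζ => ind (y ∈ cls ζ u ∧ csize ζ u ≤ N ∧ csize ζ y ≤ N) with hJ
  have hG0 : ∀ f ζ, 0 ≤ G f ζ := fun f ζ => by
    simp only [G]; split
    exacts [ind_nonneg _, le_rfl]
  have hGf : ∀ f ζ, f ∈ ζ → G f ζ = 0 := fun f ζ hf => by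
    simp only [G]; split
    next h =>
      obtain ⟨-, a, -, b, -, -, -, hn⟩ := h.choose_spec
      exact ind_false fun hh => hn (hh.1 ▸ hf)
    next => rfl
  have hsplit : ∀ ζ, ζ ⊆ E → ind (NearPair S N ζ u y) ≤ J ζ + ∑ f ∈ E, G f ζ := by
    intro ζ hζ
    have n1 : 0 ≤ ∑ f ∈ E, G f ζ := sum_nonneg fun f _ => hG0 f ζ
    have n2 : 0 ≤ J ζ := ind_nonneg _
    by_cases h : NearPair S N ζ u y
    swap
    · rw [ind_false h]; linarith
    rw [ind_true h]
    obtain ⟨hc, hu, hy⟩ := h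
    by_cases hyu : y ∈ cls ζ u
    · rw [hJ]; simp only; rw [ind_true ⟨hyu, hu, hy⟩]; linarith
    obtain ⟨a, ha, b, hb, hab⟩ := hc.resolve_left hyu
    have hP : P ζ := by
      obtain ⟨s, rfl⟩ := (hS.labelling.adj a b).1 hab
      refine ⟨s(a, nb S a s), hloc ζ hζ hu (mem_touch ha s), a, ha, _, hb, hab.ne, rfl, fun hm => ?_⟩
      refine hyu ?_
      have := cls_step ha hab.ne hm
      rw [← cls_eq_left this, cls_eq_left hb]
      exact self_mem_cls ζ y
    have := single_le_sum (f := fun f => G f ζ) (fun f _ => hG0 f ζ) hP.choose_spec.1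
    simp only [G, dif_pos hP] at this
    rw [ind_true (show True ∧ y ∉ cls ζ u ∧ csize ζ u ≤ N ∧ csize ζ y ≤ N from
      ⟨trivial, hyu, hu, hy⟩)] at this
    simp only [G, dif_pos hP]
    linarith
  have hlow : ∀ η ξ, J (η ∩ ξ) + ∑ f ∈ E, G f (η ∩ ξ) * ind (f ∈ η)
      ≤ ind (Linked η ξ u y ∧ csize (η ∩ ξ) u ≤ N ∧ csize (η ∩ ξ) y ≤ N) := by
    intro η ξ
    by_cases hyu : y ∈ cls (η ∩ ξ) u
    · rw [sum_eq_zero fun f _ => ?_, add_zero]
      · exact ind_mono fun h => ⟨Or.inl h.1, h.2⟩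
      simp only [G]; split
      · rw [ind_false fun h => h.2.1 hyu, zero_mul]
      · rw [zero_mul]
    rw [hJ]; simp only
    rw [ind_false fun h => hyu h.1, zero_add]
    by_cases hP : P (η ∩ ξ)
    swap
    · rw [sum_eq_zero fun f _ => by simp only [G, dif_neg hP, zero_mul]]
      exact ind_nonneg _
    obtain ⟨hfE, a, ha, b, hb, hne, hf, -⟩ := hP.choose_spec
    rw [sum_eq_single_of_mem hP.choose hfE fun f _ hne' => by
      simp only [G, dif_pos hP]
      rw [ind_false fun h => hne' h.1.symm, zero_mul]]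
    simp only [G, dif_pos hP, ← ind_and]
    exact ind_mono fun ⟨⟨_, _, h2⟩, h3⟩ => ⟨Or.inr ⟨a, ha, b, hb, hne, hf ▸ h3⟩, h2⟩
  refine le_trans ?_ (avg_mono E h0 h1 fun η _ => avg_mono E r0 r1 fun ξ _ => hlow η ξ)
  refine (mul_le_mul_of_nonneg_left (avg_mono E (mul_nonneg h0 r0) (mul_le_one₀ h1 r0 r1) hsplit)
    (mul_nonneg h0 (sub_nonneg.2 r1))).trans ?_
  simp only [avg_add, avg_sum, mul_add, mul_sum, avg_thin E p r J]
  refine add_le_add ?_ (sum_le_sum fun f hf => ?_)
  · exact mul_le_of_le_one_left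
      (avg_nonneg E (mul_nonneg h0 r0) (mul_le_one₀ h1 r0 r1) fun _ _ => ind_nonneg _)
      (mul_le_one₀ h1 (sub_nonneg.2 r1) (by linarith))
  · rw [← thin_open hf (G f) (hGf f)]
    refine mul_le_of_le_one_left (avg_nonneg E h0 h1 fun η _ => avg_nonneg E r0 r1 fun ξ _ =>
      mul_nonneg (hG0 _ _) (ind_nonneg _)) (by nlinarith)

/-- Apartness times the chance of a near pair. -/
theorem hop_chain (hS : Gens S) {E : Finset (Sym2 Γ)} (hE : Valid S E) {p r : ℝ} (h0 : 0 ≤ p)
    (h1 : p ≤ 1) (r0 : 0 ≤ r) (r1 : r ≤ 1) (n N : ℕ) (u x y : Γ)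
    (hloc : ∀ ζ, ζ ⊆ E → csize ζ u ≤ N → touch (nb S) (cls ζ u) ⊆ E) :
    avg E p (fun η => ind (Apart n η u x)) *
        (p * (1 - r) * avg E (p * r) (fun ζ => ind (NearPair S N ζ u y)))
      ≤ avg3 E p r (fun η η' ξ => ind (HopMeet n N u y x η η' ξ))
        + avg E p (fun η => ind (Apart n η y x)) := by
  refine (mul_le_mul_of_nonneg_left (near_le_linked hS h0 h1 r0 r1 N u y hloc)
    (avg_nonneg E h0 h1 fun _ _ => ind_nonneg _)).trans ?_
  rw [mul_comm, ← avg_mul]
  refine (avg_mono E h0 h1 fun η hη => ?_).trans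
    ((avg_add E p _ _).le.trans (add_le_add le_rfl (apart_fresh hS hE h0 h1 n u x y)))
  rw [mul_comm, ← avg_mul, ← avg_mul, ← avg_add]
  refine avg_mono E h0 h1 fun η' hη' => ?_
  rw [← avg_mul]
  refine (avg_mono E r0 r1 (g := fun ξ => ind (HopMeet n N u y x η η' ξ)
    + ind (Apart n η u x) * ind (y ∈ cls (η' \ touch (nb S) (cls η x)) u)) fun ξ hξ => ?_).trans_eq
    (by rw [avg_add, avg_const])
  rw [← ind_and, ← ind_and]
  have n1 := ind_nonneg (HopMeet n N u y x η η' ξ)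
  have n2 := ind_nonneg (Apart n η u x ∧ y ∈ cls (η' \ touch (nb S) (cls η x)) u)
  by_cases h : Apart n η u x ∧ Linked η' ξ u y ∧ csize (η' ∩ ξ) u ≤ N ∧ csize (η' ∩ ξ) y ≤ N
  swap
  · rw [ind_false h]; linarith
  rw [ind_true h]
  by_cases hd : Disjoint (cls (η' ∩ ξ) u ∪ cls (η' ∩ ξ) y) (cls η x)
  · rw [ind_true (show Apart n η u x ∧ y ∈ cls (η' \ touch (nb S) (cls η x)) u from ⟨h.1, ?_⟩)]
    · linarith
    obtain ⟨κ, hκη', hκW, hWκ⟩ := h.2.1.conn hη'
    refine cls_mono (fun e he => ?_) u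
      (cls_subset_of_edges (η' := κ \ touch (nb S) (cls η x)) (fun a b ha hb hab =>
        mem_sdiff.2 ⟨hab, fun ht => ?_⟩) (hWκ (mem_union_right _ (self_mem_cls _ y))))
    · exact mem_sdiff.2 ⟨hκη' (mem_sdiff.1 he).1, (mem_sdiff.1 he).2⟩
    · obtain ⟨v, hv, hve⟩ := touch_ends ht
      rcases Sym2.mem_iff.1 hve with rfl | rfl
      exacts [disjoint_left.1 hd (hκW ha) hv, disjoint_left.1 hd (hκW hb) hv]
  · rw [ind_true (show HopMeet n N u y x η η' ξ from ⟨h.1, h.2.1, h.2.2.1, h.2.2.2, hd⟩)]; linarith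

theorem Near.nearPair (hS : Gens S) {N : ℕ} {η : Finset (Sym2 Γ)} {u y : Γ} (h : Near S N η u y) :
    NearPair S N η u y := by
  obtain ⟨hu, hy, hd⟩ := h
  refine ⟨?_, hu.le, hy.le⟩
  obtain ⟨e, he, he'⟩ := not_disjoint_iff.1 hd
  obtain ⟨v, hv, hve⟩ := touch_ends he
  obtain ⟨w, hw, hwe⟩ := touch_ends he'
  have hG := touch_adj hS.labelling.listing he
  by_cases hvw : v = w
  · subst hvw
    left
    rw [← cls_eq_left hv, cls_eq_left hw]
    exact self_mem_cls η y
  · right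
    refine ⟨v, hv, w, hw, ?_⟩
    rw [(Sym2.mem_and_mem_iff hvw).1 ⟨hve, hwe⟩] at hG
    exact hG

variable (S) in
/-- The error of one hop. -/
noncomputable def hopErr (p : ℝ) (n m N : ℕ) : ℝ :=
  2 * (S.card * (N * (3 * ghostC S p / Real.sqrt n)) + S.card * (N * (ghostC S p / Real.sqrt m))
    + (1 - p) / p * (S.card * (m * (N * (ghostC S p / Real.sqrt n)))) + ghostC S p / Real.sqrt m)

/-- Every element lies in some ball. -/
theorem exists_ball (hS : Gens S) (hc : (cayley S).Connected) (v : Γ) : ∃ V, v ∈ ball S V := by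
  obtain ⟨w⟩ := hc.preconnected 1 v
  exact ⟨w.length, by simpa using mem_ball_of_walk hS w⟩

/-- One hop. -/
theorem hop_step (hS : Gens S) {p q : ℝ} (h0 : 0 < p) (h1 : p < 1) (hq0 : 0 ≤ q) (hqp : q ≤ p)
    (hlim : Tendsto (fun k => tail S p k) atTop (nhds 0)) (hball : ∀ v : Γ, ∃ V, v ∈ ball S V)
    {n m N : ℕ} (hm : 1 ≤ m) (hmn : 2 * m ≤ n)
    {z v : Γ} {A δ : ℝ} (hδ : 0 < δ) (hz : δ ≤ (p - q) * near S q N z) (hA : ApartAt S p n v A) :
    ApartAt S p n (z * v) ((hopErr S p n m N + A) / δ) := by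
  have hn : 1 ≤ n := by omega
  have hzb : z ∈ ball S (2 * N) := ball_of_near_pos hS (lt_of_not_ge fun h => by
    linarith [mul_nonpos_of_nonneg_of_nonpos (sub_nonneg.2 hqp) h])
  set G := ghostC S p with hG
  have hG0 : 0 < G := ghostC_pos h0 h1
  have hsn : 0 < Real.sqrt n := Real.sqrt_pos.2 (by exact_mod_cast hn)
  have hsm : 0 < Real.sqrt m := Real.sqrt_pos.2 (by exact_mod_cast hm)
  set K : ℝ := ((S.card * (ball S N).card + 1 : ℕ) : ℝ) with hK
  have hK0 : 0 < K := by rw [hK]; positivity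
  obtain ⟨R, hR⟩ := (hlim.eventually (eventually_le_nhds
    (show 0 < G / Real.sqrt m / K by positivity))).exists
  intro T
  obtain ⟨V, hV⟩ := hball (z * v)
  have hZ : ∀ u ∈ ball S T, u * (z * v) ∈ ball S (T + V) := fun u hu => mem_ball_add hu hV
  set Z := T + V with hZdef
  set T' := T + 2 * N + Z with hT'
  filter_upwards [hA (T + 2 * N), split_le hS h0 h1 hlim hn (T' + N),
    eventually_ge_atTop (T' + 3 * N + 2 + (N + (4 * R + N + 1) + 1))] with M hMA hMB hM u hu
  have hv : Valid S (eball S (1 : Γ) M) := valid_eball hS Subset.rfl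
  set y := u * z with hy
  have hyT : y ∈ ball S (T + 2 * N) := mem_ball_add hu hzb
  have hxy : u * (z * v) = y * v := by rw [hy, mul_assoc]
  have hy2 := hMA y hyT
  rw [← hxy] at hy2
  have hr1 : q / p ≤ 1 := (div_le_one h0).2 hqp
  have hr0 : 0 ≤ q / p := div_nonneg hq0 h0.le
  have hmeet := hop_meet_le hS (r := q / p) (N := N) (R := R) (M := M) h0 h1 hr0 hr1 hm hmn
    (ball_mono (by omega) hu : u ∈ ball S T') (ball_mono (by omega) hyT : y ∈ ball S T')
    (ball_mono (by omega) (hZ u hu) : u * (z * v) ∈ ball S T') (by omega)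
    (fun w hw s => hMB w hw s) (by positivity : 0 ≤ 3 * G / Real.sqrt n)
  have hloc : ∀ ζ, ζ ⊆ eball S (1 : Γ) M → csize ζ u ≤ N →
      touch (nb S) (cls ζ u) ⊆ eball S 1 M := fun ζ hζ hsz =>
    (touch_subset_eball (cls_near hS (fun e he => hv e (hζ he)) (a := (1 : Γ))
      (by simpa using hu : (1 : Γ)⁻¹ * u ∈ ball S T) hsz (le_refl (T + N)))).trans
      (eball_mono (T := 0) (near_self 1) (by omega))
  have hch := hop_chain hS hv h0.le h1.le hr0 hr1 n N u (u * (z * v)) y hloc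
  rw [mul_div_cancel₀ q h0.ne', show p * (1 - q / p) = p - q by field_simp] at hch
  have hnear : near S q N z ≤ avg (eball S 1 M) q (fun ζ => ind (NearPair S N ζ u y)) := by
    rw [← near_eq hS q (M := M) hu (by omega) z]
    exact avg_mono _ hq0 (hqp.trans h1.le) fun η _ => ind_mono fun h => h.nearPair hS
  rw [le_div_iff₀ hδ]
  refine (mul_le_mul_of_nonneg_left (hz.trans (mul_le_mul_of_nonneg_left hnear (sub_nonneg.2 hqp)))
    (avg_nonneg _ h0.le h1.le fun _ _ => ind_nonneg _)).trans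
    (hch.trans (add_le_add (hmeet.trans ?_) hy2))
  have eB : ∀ k : ℕ, ghostB S p k = G / Real.sqrt k := fun k => rfl
  rw [eB, eB, hopErr, ← hG]
  have hjunk : (S.card * (ball S N).card + 1 : ℝ) * tail S p R ≤ G / Real.sqrt m := by
    have h := mul_le_mul_of_nonneg_left hR hK0.le
    rw [mul_div_cancel₀ _ hK0.ne', hK] at h
    push_cast at h
    exact h
  linarith

open Real in
/-- Along hops that are likely near pairs two clusters of size `2 ^ l` are rarely apart. -/
theorem hops_apartAt (hS : Gens S) [Infinite Γ] (hc : (cayley S).Connected)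
    (hpc : pc (cayley S) < 1) :
    ∃ C : ℝ, ∃ L0 : ℕ, 0 < C ∧ ∀ p q : ℝ, pc (cayley S) / 2 ≤ q → q < p → p < pc (cayley S) →
      ∀ D l : ℕ, L0 ≤ l → 32 * (D + 1) ≤ l → ∀ δ : ℝ, 0 < δ → δ ≤ 1 → ∀ zs : List Γ,
        (∀ z ∈ zs, δ ≤ (p - q) * near S q (2 ^ D) z) →
        ApartAt S p (2 ^ l) zs.prod ((2 / δ) ^ zs.length * (C * exp (-(l : ℝ) / 40))) := by
  have hpc0 : 0 < pc (cayley S) := pc_pos hS hc
  set g := ghostU S with hg
  set k : ℝ := 1 + 2 / pc (cayley S) with hk
  have hk1 : 1 ≤ k := by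
    have : 0 < 2 / pc (cayley S) := by positivity
    linarith
  have hg0 : 0 < g :=
    lt_of_lt_of_le (ghostC_pos (S := S) (half_pos hpc0) (by linarith))
      (ghostC_le hpc0 hpc le_rfl (by linarith))
  refine ⟨2 * (((5 : ℝ) * S.card + 1) * k * g * 2), 4, by positivity,
    fun p q hq hqp hp D l hl hDl δ hδ hδ1 zs hzs => ?_⟩
  have h0 : 0 < p := by linarith
  have h1 : p < 1 := hp.trans hpc
  have hlim := tail_lim hS hc h0 hp
  set m := 2 ^ (l / 4) with hm
  have hmn : 2 * m ≤ 2 ^ l := by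
    rw [hm, ← pow_succ']; exact Nat.pow_le_pow_right (by norm_num) (by omega)
  set E := 2 * (((5 : ℝ) * S.card + 1) * k * g * 2) * exp (-(l : ℝ) / 40) with hE
  have hE0 : 0 ≤ E := by positivity
  have herr : hopErr S p (2 ^ l) m (2 ^ D) ≤ E := by
    set G := ghostC S p
    have hG0 : 0 < G := ghostC_pos h0 h1
    have hGg : G ≤ g := ghostC_le hpc0 hpc (by linarith) hp.le
    set x := exp (-(l : ℝ) / 40) with hx
    have hs : ∀ j : ℕ, √((2 : ℝ) ^ j) = exp ((j : ℝ) * log 2 / 2) := fun j => by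
      rw [exp_half, exp_nat_mul, exp_log two_pos]
    have e2 : ∀ j : ℕ, (2 : ℝ) ^ j = exp ((j : ℝ) * log 2) := fun j => by
      rw [exp_nat_mul, exp_log two_pos]
    have hlr : (4 : ℝ) ≤ l := by exact_mod_cast hl
    have hDr : 32 * ((D : ℝ) + 1) ≤ l := by exact_mod_cast hDl
    have hm4 : (l : ℝ) - 3 ≤ 4 * ((l / 4 : ℕ) : ℝ) := by
      have : (l : ℕ) ≤ 4 * (l / 4) + 3 := by omega
      have h' : (l : ℝ) ≤ 4 * ((l / 4 : ℕ) : ℝ) + 3 := by exact_mod_cast this
      linarith
    have hm4' : 4 * ((l / 4 : ℕ) : ℝ) ≤ l := by exact_mod_cast Nat.mul_div_le l 4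
    have hl2 := log_two_gt_d9
    have hx2 : 0 ≤ x := (exp_pos _).le
    have u1 : (2 : ℝ) ^ D / √((2 : ℝ) ^ (l / 4)) ≤ 2 * x := by
      rw [hs, e2, ← exp_sub, hx, ← exp_log two_pos, ← exp_add, exp_le_exp, exp_log two_pos]
      nlinarith
    have u2 : (2 : ℝ) ^ (l / 4) * 2 ^ D / √((2 : ℝ) ^ l) ≤ 2 * x := by
      rw [hs, e2, e2, ← exp_add, ← exp_sub, hx, ← exp_log two_pos, ← exp_add, exp_le_exp,
        exp_log two_pos]
      nlinarith
    have u3 : (2 : ℝ) ^ D / √((2 : ℝ) ^ l) ≤ 2 * x := by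
      refine le_trans (div_le_div_of_nonneg_right ?_ (sqrt_nonneg _)) u2
      exact le_mul_of_one_le_left (by positivity) (one_le_pow₀ one_le_two)
    have u4 : 1 / √((2 : ℝ) ^ (l / 4)) ≤ 2 * x :=
      (div_le_div_of_nonneg_right (one_le_pow₀ one_le_two) (sqrt_nonneg _)).trans u1
    have hpk : (1 - p) / p ≤ k := by
      rw [div_le_iff₀ h0, hk]
      have : 2 / pc (cayley S) * p ≥ 1 := by
        rw [ge_iff_le, div_mul_eq_mul_div, le_div_iff₀ hpc0]; linarith
      nlinarith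
    have hS0 : (0 : ℝ) ≤ S.card := Nat.cast_nonneg _
    have hq0 : 0 ≤ (1 - p) / p := div_nonneg (by linarith) h0.le
    have key : hopErr S p (2 ^ l) m (2 ^ D) = 2 * G * (3 * S.card * ((2 : ℝ) ^ D / √((2 : ℝ) ^ l))
        + S.card * ((2 : ℝ) ^ D / √((2 : ℝ) ^ (l / 4)))
        + (1 - p) / p * S.card * ((2 : ℝ) ^ (l / 4) * 2 ^ D / √((2 : ℝ) ^ l))
        + 1 / √((2 : ℝ) ^ (l / 4))) := by
      rw [hopErr, hm]; push_cast; ring
    rw [key, hE]
    calc _ ≤ 2 * g * (3 * S.card * (2 * x) + S.card * (2 * x) + k * S.card * (2 * x) + 2 * x) := by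
          gcongr
      _ ≤ _ := by
          nlinarith [mul_nonneg (mul_nonneg hg0.le hx2) (mul_nonneg hS0 (sub_nonneg.2 hk1)),
            mul_nonneg (mul_nonneg hg0.le hx2) (sub_nonneg.2 hk1)]
  have hd2 : 2 ≤ 2 / δ := le_div_self zero_le_two hδ hδ1
  induction zs with
  | nil =>
    rw [List.prod_nil, List.length_nil, pow_zero, one_mul]
    exact apartAt_one hE0
  | cons z zs ih =>
    rw [List.prod_cons, List.length_cons]
    have h := hop_step hS h0 h1 (by linarith : 0 ≤ q) hqp.le hlim (fun v => exists_ball hS hc v) Nat.one_le_two_pow hmn hδ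
      (hzs z (List.mem_cons_self)) (ih fun z' hz' => hzs z' (List.mem_cons_of_mem _ hz'))
    refine h.mono ?_
    rw [pow_succ', div_le_iff₀ hδ, mul_assoc (2 / δ), div_mul_eq_mul_div, div_mul_cancel₀ _ hδ.ne']
    have h1' : E ≤ (2 / δ) ^ zs.length * E := le_mul_of_one_le_left hE0 (one_le_pow₀ (by linarith))
    linarith

end Vale.Agent.P151.Stretched
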