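import Vale.Agent.P151.Growth.Ball
import Vale.Agent.P151.Growth.Path
import Vale.Agent.P151.Stretched.Indep
import Vale.Agent.P151.Stretched.Cover
import Vale.Agent.P151.Stretched.Hop

/-!
# One round: either many rarely near points, or few hops across the ball

If a ball holds `k` points whose clusters are rarely near, every translate of them meets a large
cluster, so large clusters are joined over long distances. Otherwise few of the points cover the
ball, and large clusters are glued along the hops.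
-/

namespace Vale.Agent.P151.Stretched

open Finset Filter Vale.Agent.P165 Vale.Agent.P151.Growth Real

variable {Γ : Type} [Group Γ] [DecidableEq Γ] {S : Finset Γ}

omit [Group Γ] in
/-- A decreasing event is less likely at a larger parameter. -/
theorem avg_anti_param (E : Finset (Sym2 Γ)) {q p : ℝ} (h0 : 0 ≤ q) (hqp : q ≤ p) (h1 : p ≤ 1)
    {f : Finset (Sym2 Γ) → ℝ} (hf : Antitone f) : avg E p f ≤ avg E q f := by
  have hm : Monotone fun η => (-1 : ℝ) * f η := fun a b h => by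
    have := hf h; simp only [neg_one_mul, neg_le_neg_iff]; exact this
  have h := avg_mono_param E h0 hqp h1 hm
  rw [avg_mul, avg_mul] at h
  linarith

/-- If every translate of `U` meets a large cluster, large clusters are joined along paths. -/
theorem apartLe_of_spread (hS : Gens S) {p q : ℝ} (hq0 : 0 ≤ q) (hqp : q ≤ p) (hp1 : p ≤ 1)
    {N s : ℕ} {U : Finset Γ} (hU : U ⊆ ball S s) {β A : ℝ} (hβ0 : 0 ≤ β)
    (hsmall : (1 - tail S q N) ^ U.card + ∑ u ∈ U, ∑ v ∈ U.erase u, near S q N (u⁻¹ * v) ≤ β)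
    (hA0 : 0 ≤ A) (hA : ApartLe S p N (2 * s + 1) A) (R : ℕ) :
    ApartLe S p N R ((R + 1) * β + (R + 2) * (U.card : ℝ) ^ 2 * A) := by
  have hp0 : 0 ≤ p := hq0.trans hqp
  intro T
  filter_upwards [hA (T + R + s), eventually_ge_atTop (T + R + s + (3 * N + 2))]
    with M hMA hM u hu x hx
  obtain ⟨l, hl, hlx⟩ := exists_word hx
  set L := l.map Subtype.val with hLdef
  set m := l.length with hmdef
  set w : ℕ → Γ := fun i => u * (L.take i).prod with hwdef
  have hw0 : w 0 = u := by simp [hwdef]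
  have hwm : w m = x := by
    simp only [hwdef]
    rw [List.take_of_length_le (by simp [hLdef, hmdef]), hlx, mul_inv_cancel_left]
  have hwball : ∀ i, w i ∈ ball S (T + R) := fun i => by
    refine mem_ball_add hu (ball_mono ?_ (show (L.take i).prod ∈ ball S (l.take i).length from ?_))
    · exact (List.length_take_le' i l).trans hl
    · rw [hLdef, ← List.map_take]; exact prod_mem_ball _
  have hwstep : ∀ i, i < m → ∃ a ∈ S, w (i + 1) = w i * a := fun i hi => by
    refine ⟨(l[i]).1, (l[i]).2, ?_⟩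
    simp only [hwdef]
    rw [List.prod_take_succ L i (by simpa [hLdef] using hi), ← mul_assoc]
    simp [hLdef]
  set V : ℕ → Finset Γ := fun i => U.image (w i * ·) with hVdef
  have hVball : ∀ i, V i ⊆ ball S (T + R + s) := fun i a ha => by
    obtain ⟨b, hb, rfl⟩ := mem_image.1 ha
    exact mem_ball_add (hwball i) (hU hb)
  have hVcard : ∀ i, (V i).card = U.card := fun i =>
    card_image_of_injective _ (mul_right_injective (w i))
  set E := eball S (1 : Γ) M with hE
  have hall : ∀ i, avg E p (fun η => ind (∀ a ∈ V i, csize η a < N)) ≤ β := fun i => by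
    refine (avg_anti_param E hq0 hqp hp1 (fun η η' h => ind_mono fun h' a ha => ?_)).trans
      ((all_small_le hS hq0 (hqp.trans hp1) (hVball i) hM).trans (le_of_eq_of_le ?_ hsmall))
    · exact (csize_mono h a).trans_lt (h' a ha)
    · rw [hVcard, sum_image (mul_right_injective (w i)).injOn]
      congr 1
      refine sum_congr rfl fun a ha => ?_
      rw [← image_erase (mul_right_injective (w i)), sum_image (mul_right_injective (w i)).injOn]
      exact sum_congr rfl fun b _ => by rw [show (w i * a)⁻¹ * (w i * b) = a⁻¹ * b by group]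
  set F : Finset (Sym2 Γ) → ℝ := fun η => ∑ i ∈ range (m + 1), ind (∀ a ∈ V i, csize η a < N)
    + (∑ a ∈ V 0, ind (Apart N η u a)
      + (∑ i ∈ range m, ∑ a ∈ V i, ∑ b ∈ V (i + 1), ind (Apart N η a b)
        + ∑ b ∈ V m, ind (Apart N η b x))) with hF
  have hpt : ∀ η, η ⊆ E → ind (Apart N η u x) ≤ F η := by
    intro η _
    have n1 : 0 ≤ ∑ i ∈ range (m + 1), ind (∀ a ∈ V i, csize η a < N) :=
      sum_nonneg fun _ _ => ind_nonneg _
    have n2 : 0 ≤ ∑ a ∈ V 0, ind (Apart N η u a) := sum_nonneg fun _ _ => ind_nonneg _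
    have n3 : 0 ≤ ∑ i ∈ range m, ∑ a ∈ V i, ∑ b ∈ V (i + 1), ind (Apart N η a b) :=
      sum_nonneg fun _ _ => sum_nonneg fun _ _ => sum_nonneg fun _ _ => ind_nonneg _
    have n4 : 0 ≤ ∑ b ∈ V m, ind (Apart N η b x) := sum_nonneg fun _ _ => ind_nonneg _
    simp only [hF]
    by_cases hap : Apart N η u x
    swap
    · rw [ind_false hap]; linarith
    rw [ind_true hap]
    by_cases c1 : ∃ i ≤ m, ∀ a ∈ V i, csize η a < N
    · obtain ⟨i, hi, h⟩ := c1
      have := single_le_sum (f := fun i => ind (∀ a ∈ V i, csize η a < N))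
        (fun _ _ => ind_nonneg _) (mem_range.2 (Nat.lt_succ_of_le hi))
      simp only [ind_true h] at this
      linarith
    by_cases c2 : ∃ a ∈ V 0, Apart N η u a
    · obtain ⟨a, ha, h⟩ := c2
      have := single_le_sum (f := fun a => ind (Apart N η u a)) (fun _ _ => ind_nonneg _) ha
      simp only [ind_true h] at this
      linarith
    by_cases c3 : ∃ i < m, ∃ a ∈ V i, ∃ b ∈ V (i + 1), Apart N η a b
    · obtain ⟨i, hi, a, ha, b, hb, h⟩ := c3
      have := ((single_le_sum (f := fun b => ind (Apart N η a b)) (fun _ _ => ind_nonneg _) hb).trans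
        (single_le_sum (f := fun a => ∑ b ∈ V (i + 1), ind (Apart N η a b))
          (fun _ _ => sum_nonneg fun _ _ => ind_nonneg _) ha)).trans
        (single_le_sum (f := fun i => ∑ a ∈ V i, ∑ b ∈ V (i + 1), ind (Apart N η a b))
          (fun _ _ => sum_nonneg fun _ _ => sum_nonneg fun _ _ => ind_nonneg _)
          (mem_range.2 hi))
      simp only [ind_true h] at this
      linarith
    by_cases c4 : ∃ b ∈ V m, Apart N η b x
    · obtain ⟨b, hb, h⟩ := c4
      have := single_le_sum (f := fun b => ind (Apart N η b x)) (fun _ _ => ind_nonneg _) hb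
      simp only [ind_true h] at this
      linarith
    exfalso
    push Not at c1 c2 c3 c4
    have join : ∀ i ≤ m, ∀ a ∈ V i, N ≤ csize η a → a ∈ cls η u := by
      intro i
      induction i with
      | zero => exact fun _ a ha hb => by_contra fun h => c2 a ha ⟨h, hap.2.1, hb⟩
      | succ i ih =>
        intro hi a ha hb
        obtain ⟨b, hb', hbig⟩ := c1 i (by omega)
        rw [← cls_eq_left (ih (by omega) b hb' hbig)]
        exact by_contra fun h => c3 i hi b hb' a ha ⟨h, hbig, hb⟩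
    obtain ⟨b, hb, hbig⟩ := c1 m le_rfl
    refine hap.1 ?_
    rw [← cls_eq_left (join m le_rfl b hb hbig)]
    exact by_contra fun h => c4 b hb ⟨h, hbig, hap.2.2⟩
  refine (avg_mono E hp0 hp1 hpt).trans ?_
  simp only [hF]
  rw [avg_add, avg_add, avg_add, avg_sum, avg_sum, avg_sum, avg_sum]
  have huT : u ∈ ball S (T + R + s) := ball_mono (by omega) hu
  have b1 : ∑ i ∈ range (m + 1), avg E p (fun η => ind (∀ a ∈ V i, csize η a < N))
      ≤ ((R : ℝ) + 1) * β := by
    refine (sum_le_card_nsmul _ _ β fun i _ => hall i).trans ?_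
    rw [card_range, nsmul_eq_mul]
    push_cast
    gcongr
  have b2 : ∑ a ∈ V 0, avg E p (fun η => ind (Apart N η u a)) ≤ (U.card : ℝ) * A := by
    refine (sum_le_card_nsmul _ _ A fun a ha => hMA u huT a ?_).trans_eq
      (by rw [hVcard, nsmul_eq_mul])
    obtain ⟨b, hb, rfl⟩ := mem_image.1 ha
    rw [hw0, inv_mul_cancel_left]
    exact ball_mono (by omega) (hU hb)
  have b3 : ∑ i ∈ range m, avg E p (fun η => ∑ a ∈ V i, ∑ b ∈ V (i + 1), ind (Apart N η a b))
      ≤ (R : ℝ) * ((U.card : ℝ) * ((U.card : ℝ) * A)) := by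
    refine (sum_le_card_nsmul _ _ ((U.card : ℝ) * ((U.card : ℝ) * A)) fun i hi => ?_).trans ?_
    · rw [avg_sum]
      refine (sum_le_card_nsmul _ _ ((U.card : ℝ) * A) fun a ha => ?_).trans_eq
        (by rw [hVcard, nsmul_eq_mul])
      rw [avg_sum]
      refine (sum_le_card_nsmul _ _ A fun b hb => hMA a (hVball i ha) b ?_).trans_eq
        (by rw [hVcard, nsmul_eq_mul])
      obtain ⟨a', ha', rfl⟩ := mem_image.1 ha
      obtain ⟨b', hb', rfl⟩ := mem_image.1 hb
      obtain ⟨g, hg, e⟩ := hwstep i (mem_range.1 hi)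
      rw [e, show (w i * a')⁻¹ * (w i * g * b') = a'⁻¹ * g * b' by group]
      exact ball_mono (by omega)
        (mem_ball_add (mul_mem_ball_succ (inv_mem_ball hS (hU ha')) hg) (hU hb'))
    · rw [card_range, nsmul_eq_mul]
      gcongr
  have b4 : ∑ b ∈ V m, avg E p (fun η => ind (Apart N η b x)) ≤ (U.card : ℝ) * A := by
    refine (sum_le_card_nsmul _ _ A fun b hb => hMA b (hVball m hb) x ?_).trans_eq
      (by rw [hVcard, nsmul_eq_mul])
    obtain ⟨c, hc, rfl⟩ := mem_image.1 hb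
    rw [hwm, show (x * c)⁻¹ * x = c⁻¹ by group]
    exact ball_mono (by omega) (inv_mem_ball hS (hU hc))
  have hk : (U.card : ℝ) ≤ (U.card : ℝ) ^ 2 := by exact_mod_cast Nat.le_self_pow two_ne_zero _
  have := mul_le_mul_of_nonneg_right hk hA0
  nlinarith

/-- Points covered by `W` give short chains of hops across the ball. -/
theorem ball_cover_hops (hS : Gens S) {W : Γ → Prop} (hW : ∀ z, W z → W z⁻¹) (hstep : ∀ a ∈ S, W a)
    {s : ℕ} {U : Finset Γ} (hcov : ∀ v ∈ ball S s, ∃ u ∈ U, W (u⁻¹ * v)) :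
    ∀ v ∈ ball S s, ∃ zs : List Γ, zs.length ≤ 3 * U.card ∧ (∀ z ∈ zs, W z) ∧ zs.prod = v := by
  intro v hv
  obtain ⟨l, hl, rfl⟩ := exists_word hv
  obtain ⟨zs, h1, h2, h3⟩ := exists_hops W hW (fun i => ((l.map Subtype.val).take i).prod) l.length
    (fun i hi => by
      rw [List.prod_take_succ _ i (by simpa using hi), inv_mul_cancel_left]
      exact hstep _ (by simp))
    U fun i hi => hcov _ (by
      rw [← List.map_take]
      exact ball_mono ((List.length_take_le' i l).trans hl) (prod_mem_ball _))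
  exact ⟨zs, h1, h2, by simpa [List.take_of_length_le] using h3⟩

/-- The cost of one hop: `2 / δ` for `δ = (p - q) η`. -/
theorem log_hop_le {H Λ K Z k ε : ℝ} (hH : 0 ≤ H) (hΛ : 0 ≤ Λ) (hK : 0 < K) (hZ : 0 < Z)
    (hk1 : 1 ≤ k) (hkK : k ≤ K * (H + 1)) (hε : exp (-Λ) ≤ ε) :
    log (2 / (ε * (exp (-H) / k ^ 2 * Z))) ≤ (|log (2 * K ^ 2 / Z)| + 3) * (H + Λ + 1) := by
  have hk0 : 0 < k := by linarith
  have hε0 : 0 < ε := (exp_pos _).trans_le hε
  rw [show 2 / (ε * (exp (-H) / k ^ 2 * Z)) = 2 / Z * k ^ 2 * (exp H * ε⁻¹) by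
    rw [exp_neg]; field_simp]
  have h1 : k ^ 2 ≤ K ^ 2 * exp (2 * H) := by
    refine (pow_le_pow_left₀ hk0.le hkK 2).trans ?_
    rw [mul_pow, show exp (2 * H) = exp H ^ 2 by rw [← exp_nat_mul]; norm_num]
    exact mul_le_mul_of_nonneg_left (pow_le_pow_left₀ (by linarith) (add_one_le_exp H) 2)
      (sq_nonneg K)
  have h2 : ε⁻¹ ≤ exp Λ := by
    rw [inv_le_comm₀ hε0 (exp_pos _), ← exp_neg]; exact hε
  have hb : 2 / Z * k ^ 2 * (exp H * ε⁻¹) ≤ 2 * K ^ 2 / Z * exp (3 * H + Λ) := by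
    calc 2 / Z * k ^ 2 * (exp H * ε⁻¹) ≤ 2 / Z * (K ^ 2 * exp (2 * H)) * (exp H * exp Λ) := by
          gcongr
      _ = 2 * K ^ 2 / Z * (exp (2 * H) * exp H * exp Λ) := by ring
      _ = _ := by rw [← exp_add, ← exp_add]; ring_nf
  refine (log_le_log (by positivity) hb).trans ?_
  rw [log_mul (by positivity) (by positivity), log_exp]
  have := le_abs_self (log (2 * K ^ 2 / Z))
  have := mul_nonneg (abs_nonneg (log (2 * K ^ 2 / Z))) (show 0 ≤ H + Λ by linarith)
  linarith

/-- The total cost of the hops across a ball of radius `r`. -/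
theorem hops_cost {r s k D G H Λ K a M C n : ℝ} (hr : 0 ≤ r) (hH : 0 ≤ H) (hΛ : 0 ≤ Λ)
    (hK : 0 ≤ K) (ha : 0 ≤ a) (hDG : 0 < D * G) (hs : D * G ≤ 1024 * s) (hk0 : 0 ≤ k)
    (hk : k ≤ K * (H + 1)) (hM : M = 3 * K * a) (hC : 1024 * M ≤ C)
    (hCD : C * (H + 1) * (H + Λ + 1) ≤ D) (hn : n ≤ 3 * k * (r / s + 1)) :
    n * (a * (H + Λ + 1)) ≤ r / (D * G / (C * (H + 1) * (H + Λ + 1))) + D / 8 := by
  have hs0 : 0 < s := by linarith
  have h1 : r / s ≤ 1024 * r / (D * G) := by
    rw [div_le_div_iff₀ hs0 hDG]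
    have := mul_le_mul_of_nonneg_left hs hr
    linarith
  have hQ : 0 ≤ (H + 1) * (H + Λ + 1) := by positivity
  have hM0 : 0 ≤ M := by rw [hM]; positivity
  calc n * (a * (H + Λ + 1)) ≤ 3 * k * (r / s + 1) * (a * (H + Λ + 1)) := by gcongr
    _ ≤ 3 * (K * (H + 1)) * (1024 * r / (D * G) + 1) * (a * (H + Λ + 1)) := by gcongr
    _ = r * (1024 * M * ((H + 1) * (H + Λ + 1))) / (D * G)
        + M * ((H + 1) * (H + Λ + 1)) := by rw [hM]; ring
    _ ≤ r * (C * ((H + 1) * (H + Λ + 1))) / (D * G) + D / 8 := by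
        refine add_le_add ?_ ?_
        · gcongr
        · have h2 := mul_le_mul_of_nonneg_right hC hQ
          have h3 := mul_nonneg hM0 hQ
          linarith [mul_assoc C (H + 1) (H + Λ + 1)]
    _ = _ := by rw [div_div_eq_mul_div]; ring

/-- One round. -/
theorem round (hS : Gens S) [Infinite Γ] (hc : (cayley S).Connected) (hpc : pc (cayley S) < 1)
    {θ₁ : ℝ} (hθ : 0 < θ₁) : ∃ C : ℝ, ∃ D0 : ℕ, 1 ≤ C ∧ ∀ q p : ℝ, ∀ D X : ℕ, ∀ G H Λ : ℝ,
      pc (cayley S) / 2 ≤ q → q < p → p < pc (cayley S) → Inv S p X G → X ≤ D → D0 ≤ D → 0 < G →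
      1024 ≤ (D : ℝ) * G → 1 ≤ H → 0 ≤ Λ → exp (-Λ) ≤ p - q → θ₁ ≤ tail S q (2 ^ D) →
      C * (H + 1) * (H + Λ + 1) ≤ D →
      (∀ R : ℕ, ApartLe S p (2 ^ D) R
          (C * ((R : ℝ) + 2) * (exp (-H) + (H + 1) ^ 2 * exp (-(D : ℝ) / 128)))) ∨
        Inv S p (32 * (D + 1)) ((D : ℝ) * G / (C * (H + 1) * (H + Λ + 1))) := by
  obtain ⟨C₀, L₀, hC₀, hop⟩ := hops_apartAt hS hc hpc
  set P := pc (cayley S) with hP
  have hP0 : 0 < P := pc_pos hS hc
  have hS0 : S.Nonempty := by
    by_contra hempty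
    rw [not_nonempty_iff_eq_empty] at hempty
    obtain ⟨y, hy⟩ := Infinite.exists_notMem_finset ({1} : Finset Γ)
    obtain ⟨w⟩ := hc.preconnected 1 y
    cases w with
    | nil => exact hy (mem_singleton_self 1)
    | cons h _ => simpa [hempty] using hS.adj.1 h
  set Z : ℝ := (1 - P) ^ (2 * S.card) with hZ
  have hZ0 : 0 < Z := pow_pos (sub_pos.2 hpc) _
  have hZ1 : Z ≤ 1 := pow_le_one₀ (sub_nonneg.2 hpc.le) (by linarith)
  set K : ℝ := 1 / θ₁ + 3 with hK
  have hK1 : 3 ≤ K := by have : 0 < 1 / θ₁ := by positivity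
                         linarith
  set M : ℝ := 3 * K * (|log (2 * K ^ 2 / Z)| + 3) with hM
  have hM0 : 0 < M := by positivity
  set C : ℝ := K ^ 2 + 1024 * M + 2 with hC
  have hK2 : 0 ≤ K ^ 2 := sq_nonneg K
  refine ⟨C, max (max L₀ 1) ⌈8 * log C₀⌉₊, by linarith, ?_⟩
  intro q p D X G H Λ hq hqp hp hInv hX hD hG hDG hH hΛ hgap hθD hCD
  obtain ⟨⟨hDL, hD1⟩, hDC⟩ : (L₀ ≤ D ∧ 1 ≤ D) ∧ ⌈8 * log C₀⌉₊ ≤ D :=
    ⟨max_le_iff.1 (max_le_iff.1 hD).1, (max_le_iff.1 hD).2⟩
  have hDC' : 8 * log C₀ ≤ D := Nat.ceil_le.1 hDC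
  have hq0 : 0 < q := by linarith
  have hq1 : q < 1 := by linarith
  have hp1 : p < 1 := by linarith
  set N := 2 ^ D with hN
  have hN2 : 2 ≤ N := le_self_pow₀ (by norm_num) (by omega)
  set k := ⌈H / θ₁⌉₊ + 2 with hk
  have hkK : (k : ℝ) ≤ K * (H + 1) := by
    have h1 := Nat.ceil_lt_add_one (show 0 ≤ H / θ₁ by positivity)
    have h2 : K * (H + 1) = H / θ₁ + 1 / θ₁ + 3 * H + 3 := by rw [hK]; ring
    have h3 : 0 < 1 / θ₁ := by positivity
    rw [hk]; push_cast; linarith
  have hk1 : (1 : ℝ) ≤ k := by exact_mod_cast (show 1 ≤ k by omega)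
  set η : ℝ := exp (-H) / (k : ℝ) ^ 2 * Z with hη
  have hη0 : 0 < η := by positivity
  have ha1 : exp (-H) / (k : ℝ) ^ 2 ≤ 1 :=
    (div_le_one (by positivity)).2 ((exp_le_one_iff.2 (by linarith)).trans (one_le_pow₀ hk1))
  have hηZ : η ≤ Z := mul_le_of_le_one_left hZ0.le ha1
  have hηH : η ≤ exp (-H) / (k : ℝ) ^ 2 := mul_le_of_le_one_right (by positivity) hZ1
  set W : Γ → Prop := fun z => η ≤ near S q N z with hW
  have hWstep : ∀ z, z = 1 ∨ z ∈ S → W z := fun z hz =>
    hηZ.trans ((pow_le_pow_left₀ (sub_nonneg.2 hpc.le) (by linarith) _).trans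
      (near_step hS hq0.le hq1.le hN2 hS0 hz))
  have hWinv : ∀ z, W z → W z⁻¹ := fun z hz => by
    simp only [hW] at hz ⊢
    rwa [near_inv hS q (ball_of_near_pos hS (hη0.trans_le hz))]
  set x := (D : ℝ) * G / 512 with hx
  set s := ⌊x⌋₊ with hs
  have hx2 : 2 ≤ x := by rw [hx]; linarith
  have hsx : (s : ℝ) ≤ x := Nat.floor_le (by linarith)
  have hs2 : x / 2 ≤ s := by linarith [Nat.lt_floor_add_one x]
  have hs1 : 1 ≤ s := Nat.le_floor (by push_cast; linarith)
  rcases exists_spread_or_cover (ball S s) (fun a b => W (a⁻¹ * b))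
      (fun a b h => by simpa using hWinv _ h)
      (fun a _ => hWstep _ (Or.inl (inv_mul_cancel a))) k with ⟨U, hU, hUk, hsep⟩ | ⟨U, hU, hUk, hcov⟩
  · left
    intro R
    set E := exp (-H) with hE
    have ht1 : tail S q N ≤ 1 := tail_le_one hq0.le hq1.le N
    have hsmall : (1 - tail S q N) ^ U.card + ∑ u ∈ U, ∑ v ∈ U.erase u, near S q N (u⁻¹ * v)
        ≤ 2 * E := by
      rw [two_mul]
      refine add_le_add ?_ ?_
      · refine (pow_le_pow_left₀ (by linarith) (one_sub_le_exp_neg _) _).trans ?_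
        rw [← exp_nat_mul, hUk, exp_le_exp]
        have : H / θ₁ ≤ k := (Nat.le_ceil _).trans (by exact_mod_cast (show _ ≤ k by omega))
        rw [div_le_iff₀ hθ] at this
        have : (k : ℝ) * θ₁ ≤ k * tail S q N := mul_le_mul_of_nonneg_left hθD (by positivity)
        linarith
      · refine (sum_le_card_nsmul _ _ (E / k) fun u hu => ?_).trans_eq
          (by rw [hUk, nsmul_eq_mul, mul_div_cancel₀ _ (by positivity)])
        refine (sum_le_card_nsmul _ _ η fun v hv =>
          (not_le.1 (hsep u hu v (mem_of_mem_erase hv) (ne_of_mem_erase hv).symm)).le).trans ?_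
        rw [nsmul_eq_mul]
        calc ((U.erase u).card : ℝ) * η ≤ (k : ℝ) * (E / (k : ℝ) ^ 2) := by
              gcongr
              rw [← hUk]; exact card_le_card (erase_subset _ _)
          _ = E / k := by field_simp
    have hInvA := (hInv p le_rfl hp D hX (2 * s + 1)).mono le_rfl
      (show exp (-(D : ℝ) / 64 + ((2 * s + 1 : ℕ) : ℝ) / G) ≤ exp (-(D : ℝ) / 128) by
        rw [exp_le_exp]
        have : ((2 * s + 1 : ℕ) : ℝ) / G ≤ (D : ℝ) / 128 := by
          rw [div_le_iff₀ hG]; push_cast; rw [hx] at hsx; linarith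
        linarith)
    refine (apartLe_of_spread hS hq0.le hqp.le hp1.le hU (by positivity) hsmall (by positivity)
      hInvA R).mono le_rfl ?_
    rw [hUk]
    have h1 : ((R : ℝ) + 1) * (2 * E) ≤ C * ((R : ℝ) + 2) * E := by
      calc ((R : ℝ) + 1) * (2 * E) = 2 * ((R : ℝ) + 1) * E := by ring
        _ ≤ C * ((R : ℝ) + 2) * E := by gcongr <;> linarith
    have h2 : ((R : ℝ) + 2) * (k : ℝ) ^ 2 * exp (-(D : ℝ) / 128)
        ≤ C * ((R : ℝ) + 2) * ((H + 1) ^ 2 * exp (-(D : ℝ) / 128)) := by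
      have h3 : (k : ℝ) ^ 2 ≤ C * (H + 1) ^ 2 :=
        (pow_le_pow_left₀ (by positivity) hkK 2).trans (by
          rw [mul_pow]; gcongr; linarith)
      calc ((R : ℝ) + 2) * (k : ℝ) ^ 2 * exp (-(D : ℝ) / 128)
          ≤ ((R : ℝ) + 2) * (C * (H + 1) ^ 2) * exp (-(D : ℝ) / 128) := by gcongr
        _ = _ := by ring
    linarith
  · right
    intro p' hpp' hp' l hl r
    refine apartLe_of_apartAt fun v hv => ?_
    have hcovhops := ball_hops hS W hs1
      (ball_cover_hops hS hWinv (fun a ha => hWstep a (Or.inr ha)) hcov) r v hv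
    obtain ⟨zs, hlen, hzW, rfl⟩ := hcovhops
    set δ := (p - q) * η with hδ
    have hgap0 : 0 < p - q := sub_pos.2 hqp
    have hδ0 : 0 < δ := mul_pos hgap0 hη0
    have hδ1 : δ ≤ 1 := mul_le_one₀ (by linarith) hη0.le (hηZ.trans hZ1)
    refine (hop p' q hq (hqp.trans_le hpp') hp' D l (by omega) hl δ hδ0 hδ1 zs fun z hz =>
      mul_le_mul (by linarith) (hzW z hz) hη0.le (by linarith)).mono ?_
    have hcost := hops_cost (r := (r : ℝ)) (s := (s : ℝ)) (k := (U.card : ℝ))
      (n := (zs.length : ℝ)) (D := (D : ℝ)) (G := G) (H := H) (Λ := Λ) (K := K)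
      (a := |log (2 * K ^ 2 / Z)| + 3) (M := M) (C := C) (Nat.cast_nonneg r) (by linarith) hΛ (by linarith) (by positivity)
      (by linarith) (by rw [hx] at hs2; linarith) (Nat.cast_nonneg _)
      ((Nat.cast_le.2 hUk.le).trans hkK) hM (by rw [hC]; linarith [sq_nonneg K]) hCD (by
        refine (Nat.cast_le.2 hlen).trans ?_
        push_cast
        gcongr
        exact Nat.cast_div_le)
    have hexp : (zs.length : ℝ) * log (2 / δ) ≤ _ :=
      (mul_le_mul_of_nonneg_left (log_hop_le (by linarith) hΛ (by linarith) hZ0 hk1 hkK hgap)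
        (Nat.cast_nonneg _)).trans hcost
    have hl' : 32 * (D : ℝ) ≤ l := by exact_mod_cast (show 32 * D ≤ l by omega)
    rw [← exp_log (show (0 : ℝ) < 2 / δ by positivity), ← exp_log hC₀, ← exp_nat_mul, ← exp_add,
      ← exp_add, exp_le_exp]
    linarith

end Vale.Agent.P151.Stretched
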