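import Vale.Agent.P151.Growth.Criterion
import Vale.Agent.P151.Growth.Path
import Vale.Agent.P151.Stretched.Round

/-!
# A flat stretch of the cluster tail propagates to the square of its scale
-/

namespace Vale.Agent.P151.Stretched

open Finset Filter Vale.Agent.P165 Vale.Agent.P151.Growth Real

variable {Γ : Type} [Group Γ] [DecidableEq Γ] {S : Finset Γ}

/-- Short gluing along a path starts the invariant. -/
theorem inv_base (hS : Gens S) [Infinite Γ] (hc : (cayley S).Connected)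
    (hpc : pc (cayley S) < 1) :
    ∃ X₀ : ℕ, ∃ g₀ : ℝ, 0 < g₀ ∧ Inv S (pc (cayley S) / 2) X₀ g₀ := by
  set P := pc (cayley S) with hP
  have hP0 : 0 < P := pc_pos hS hc
  have hlog : 0 ≤ log (2 / P) := log_nonneg (by rw [le_div_iff₀ hP0]; linarith)
  refine ⟨⌈12 * ghostU S⌉₊, 1 / (1 + log (2 / P)), by positivity, fun p hp hp1 l hl r => ?_⟩
  have h0 : 0 < p := by linarith
  have h1 : p < 1 := hp1.trans hpc
  refine (apartLe_base hS h0 h1 (tail_lim hS hc h0 hp1) Nat.one_le_two_pow r).mono le_rfl ?_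
  rw [div_div_eq_mul_div, div_one, exp_add, mul_comm (exp _)]
  refine mul_le_mul ?_ ?_ (div_nonneg (by linarith [ghostC_pos (S := S) h0 h1]) (sqrt_nonneg _))
    (exp_pos _).le
  · rw [mul_add, mul_one, exp_add, ← rpow_natCast p⁻¹ r]
    refine mul_le_mul (by linarith [add_one_le_exp (r : ℝ)]) ?_ (by positivity) (exp_pos _).le
    rw [mul_comm, ← rpow_def_of_pos (by positivity : (0 : ℝ) < 2 / P)]
    refine rpow_le_rpow (by positivity) ?_ (Nat.cast_nonneg r)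
    rw [inv_eq_one_div, div_le_div_iff₀ h0 hP0]
    linarith
  · have hG := ghostC_le (S := S) hP0 hpc hp hp1.le
    have hl' : 12 * ghostU S ≤ (l : ℝ) := (Nat.le_ceil _).trans (by exact_mod_cast hl)
    have hsq : Real.sqrt ((2 ^ l : ℕ) : ℝ) = exp ((l : ℝ) * log 2 / 2) := by
      push_cast
      rw [exp_half, exp_nat_mul, exp_log two_pos]
    rw [hsq, div_le_iff₀ (exp_pos _), ← exp_add]
    have := log_two_gt_d9
    nlinarith [add_one_le_exp (-(l : ℝ) / 64 + l * log 2 / 2), Nat.cast_nonneg (α := ℝ) l]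

/-- The lowest scale of the rounds. -/
theorem scale_low {D ρ : ℕ} (h5 : (1 : ℝ) ≤ (D : ℝ) / (2 * ((64 ^ ρ : ℕ) : ℝ))) (i : ℕ) :
    (D : ℝ) / (2 * ((64 ^ ρ : ℕ) : ℝ)) ≤ ((D / 64 ^ (ρ - i) : ℕ) : ℝ) := by
  set K := (64 : ℕ) ^ ρ with hK
  have hKpos : 0 < K := pow_pos (by norm_num) ρ
  have hK0 : (0 : ℝ) < K := by exact_mod_cast hKpos
  have h1 : D / K ≤ D / 64 ^ (ρ - i) :=
    Nat.div_le_div_left (Nat.pow_le_pow_right (by norm_num) (Nat.sub_le ρ i)) (by positivity)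
  have h2 : D < K * (D / K + 1) := Nat.lt_mul_div_succ D hKpos
  have h3 : (D : ℝ) < K * (((D / K : ℕ) : ℝ) + 1) := by exact_mod_cast h2
  have h4 : ((D / K : ℕ) : ℝ) ≤ ((D / 64 ^ (ρ - i) : ℕ) : ℝ) := by exact_mod_cast h1
  have h6 : (D : ℝ) / (2 * K) * (2 * K) = D := div_mul_cancel₀ _ (by positivity)
  nlinarith

/-- The gain of one round. -/
theorem round_gain {x C H a δ K : ℝ} (hx1 : 1 ≤ x) (hC : 0 < C) (hK : 0 < K) (hH : 0 ≤ H)
    (ha : 0 ≤ a) (hδ0 : 0 ≤ δ) (hδ : δ = (1 - a) / 4) (hδa : δ ≤ a) (v1 : H + 1 ≤ x ^ δ)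
    (v2 : 6 * C * K ≤ x ^ (2 * δ)) :
    C * (H + 1) * (H + x ^ a + 1) * x ^ δ ≤ x / (2 * K) := by
  have hx0 : 0 < x := by linarith
  have h1 : H + x ^ a + 1 ≤ 3 * x ^ a := by
    have := rpow_le_rpow_of_exponent_le hx1 hδa
    linarith [one_le_rpow hx1 ha]
  have e1 : x ^ δ * x ^ a * x ^ δ = x ^ (1 - 2 * δ) := by
    rw [← rpow_add hx0, ← rpow_add hx0]; congr 1; rw [hδ]; ring
  have e2 : x ^ (1 - 2 * δ) * x ^ (2 * δ) = x := by
    rw [← rpow_add hx0, sub_add_cancel, rpow_one]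
  calc C * (H + 1) * (H + x ^ a + 1) * x ^ δ ≤ C * x ^ δ * (3 * x ^ a) * x ^ δ :=
        mul_le_mul_of_nonneg_right (mul_le_mul (mul_le_mul_of_nonneg_left v1 hC.le) h1
          (by linarith [rpow_nonneg hx0.le a]) (by positivity)) (by positivity)
    _ = 3 * C * x ^ (1 - 2 * δ) := by rw [← e1]; ring
    _ ≤ x / (2 * K) := by
        rw [le_div_iff₀ (by positivity)]
        have := mul_le_mul_of_nonneg_left v2 (rpow_nonneg hx0.le (1 - 2 * δ))
        nlinarith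

/-- The bound left by a round with a spread set. -/
theorem neg_numeric {x C H K y : ℝ} {e R : ℕ} (hx1 : 1 ≤ x) (hC : 0 < C) (hH0 : 0 ≤ H)
    (hH : H = ((e : ℝ) + 4) * log x) (hR : (R : ℝ) = x ^ e) (hHx : H + 1 ≤ x) (hK : 0 < K)
    (hy : x / (2 * K) ≤ y) (w2 : 16 * C ≤ x)
    (v3 : 16 * C * x ^ (e + 4) * exp (-(1 / (256 * K)) * x) ≤ 1) :
    C * (((2 * R : ℕ) : ℝ) + 2) * (exp (-H) + (H + 1) ^ 2 * exp (-y / 128))
      ≤ 1 / (2 * x ^ 2) := by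
  have hx0 : 0 < x := by linarith
  have hR1 : ((2 * R : ℕ) : ℝ) + 2 ≤ 4 * x ^ e := by
    push_cast
    rw [hR]
    linarith [one_le_pow₀ hx1 (n := e)]
  have hexp : exp (-H) = 1 / x ^ (e + 4) := by
    rw [exp_neg, hH, show ((e : ℝ) + 4) = ((e + 4 : ℕ) : ℝ) by push_cast; ring,
      exp_nat_mul, exp_log hx0, one_div]
  have hexp2 : exp (-y / 128) ≤ exp (-(1 / (256 * K)) * x) := by
    refine exp_le_exp.2 ?_
    have h6 : x / (2 * K) = 128 * (1 / (256 * K) * x) := by field_simp; ring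
    linarith
  refine (mul_le_mul (mul_le_mul_of_nonneg_left hR1 hC.le)
    (add_le_add hexp.le (mul_le_mul (pow_le_pow_left₀ (by linarith) hHx 2) hexp2 (exp_pos _).le
      (by positivity))) (by positivity) (by positivity)).trans ?_
  rw [mul_add]
  have t1 : C * (4 * x ^ e) * (1 / x ^ (e + 4)) ≤ 1 / (4 * x ^ 2) := by
    rw [pow_add, show C * (4 * x ^ e) * (1 / (x ^ e * x ^ 4)) = 4 * C / x ^ 4 by
      field_simp, div_le_div_iff₀ (by positivity) (by positivity)]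
    nlinarith [mul_le_mul_of_nonneg_left w2 (show (0 : ℝ) ≤ x ^ 2 by positivity),
      mul_le_mul_of_nonneg_left hx1 (show (0 : ℝ) ≤ x ^ 3 by positivity)]
  have t2 : C * (4 * x ^ e) * (x ^ 2 * exp (-(1 / (256 * K)) * x)) ≤ 1 / (4 * x ^ 2) := by
    rw [le_div_iff₀ (by positivity)]
    refine le_trans (le_of_eq ?_) v3
    ring
  have : 1 / (2 * x ^ 2) = 1 / (4 * x ^ 2) + 1 / (4 * x ^ 2) := by ring
  linarith

/-- The bound left by a complete run of rounds. -/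
theorem pos_numeric {x G g s : ℝ} {e R : ℕ} (hx1 : 1 ≤ x) (hg : 0 < g) (hR : (R : ℝ) = x ^ e)
    (hs : (e : ℝ) + 1 ≤ s) (hG : g * x ^ s ≤ G) (w1 : 2 / g ≤ x)
    (v4 : 6 * x ^ 2 * exp (-(1 / 64) * x) ≤ 1) :
    exp (-x / 64 + ((2 * R : ℕ) : ℝ) / G) ≤ 1 / (2 * x ^ 2) := by
  have hx0 : 0 < x := by linarith
  have h2 : 2 * x ^ e ≤ G := by
    have h3 : x ^ e * x ≤ x ^ s := by
      rw [← pow_succ, ← rpow_natCast, Nat.cast_succ]
      exact rpow_le_rpow_of_exponent_le hx1 hs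
    rw [div_le_iff₀ hg] at w1
    nlinarith [mul_le_mul_of_nonneg_left w1 (pow_nonneg hx0.le e)]
  have hfrac : ((2 * R : ℕ) : ℝ) / G ≤ 1 := by
    push_cast
    rw [hR]
    exact div_le_one_of_le₀ h2 (le_trans (by positivity) h2)
  rw [le_div_iff₀ (by positivity)]
  calc exp (-x / 64 + ((2 * R : ℕ) : ℝ) / G) * (2 * x ^ 2)
      ≤ exp (-x / 64) * 3 * (2 * x ^ 2) := by
        refine mul_le_mul_of_nonneg_right ?_ (by positivity)
        rw [exp_add]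
        refine mul_le_mul_of_nonneg_left ?_ (exp_pos _).le
        exact (exp_le_exp.2 hfrac).trans (exp_one_lt_d9.le.trans (by norm_num))
    _ = 6 * x ^ 2 * exp (-(1 / 64) * x) := by ring_nf
    _ ≤ 1 := v4

/-- A ball of radius `D ^ e` is much larger than `2 ^ (D ^ 2)`. -/
theorem volume_numeric {c b : ℝ} (hc0 : 0 < c)
    (hgrow : ∀ r : ℕ, 1 ≤ r → exp (c * (r : ℝ) ^ b) ≤ (ball S r).card) {D e : ℕ}
    (heb : 4 ≤ (e : ℝ) * b) (hx1 : 1 ≤ (D : ℝ)) (w4 : 2 / c ≤ (D : ℝ))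
    (v4 : 6 * (D : ℝ) ^ 2 * exp (-(1 / 64) * (D : ℝ)) ≤ 1) :
    ((2 ^ (D ^ 2) : ℕ) : ℝ) / (ball S (D ^ e)).card ≤ 1 / (2 * (D : ℝ) ^ 2) := by
  set x := (D : ℝ) with hx
  have hx0 : 0 < x := by linarith
  have hR1 : 1 ≤ D ^ e := Nat.one_le_pow _ _ (by rw [hx] at hx1; exact_mod_cast hx1)
  have h4 : x ^ (4 : ℕ) ≤ ((D ^ e : ℕ) : ℝ) ^ b := by
    push_cast
    rw [← hx, ← rpow_natCast, ← rpow_natCast x e, ← rpow_mul hx0.le]
    exact rpow_le_rpow_of_exponent_le hx1 (by push_cast; linarith)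
  have h5 : exp (c * x ^ 4) ≤ ((ball S (D ^ e)).card : ℝ) :=
    (exp_le_exp.2 (mul_le_mul_of_nonneg_left h4 hc0.le)).trans (hgrow _ hR1)
  have h6 : ((2 ^ (D ^ 2) : ℕ) : ℝ) ≤ exp (x ^ 2) := by
    push_cast
    rw [← exp_log two_pos, ← exp_nat_mul, exp_le_exp]
    push_cast
    rw [← hx]
    nlinarith [log_two_lt_d9]
  refine (div_le_div₀ (exp_pos _).le h6 (exp_pos _) h5).trans ?_
  rw [← exp_sub, le_div_iff₀ (by positivity)]
  refine le_trans ?_ v4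
  rw [mul_comm]
  refine mul_le_mul (by linarith [sq_nonneg x]) (exp_le_exp.2 ?_) (exp_pos _).le (by positivity)
  rw [div_le_iff₀ hc0] at w4
  nlinarith [mul_le_mul_of_nonneg_left w4 (show (0 : ℝ) ≤ x ^ 3 by positivity),
    mul_le_mul_of_nonneg_left hx1 (show (0 : ℝ) ≤ x ^ 2 by positivity),
    mul_le_mul_of_nonneg_left hx1 hx0.le]

/-- A run of rounds ends with a gluing bound at some scale up to `D`. -/
theorem run {p x δ H E C g₀ ε : ℝ} {D X₀ R₀ ρ R : ℕ} (d : ℕ → ℕ) (hg₀ : 0 < g₀) (hx1 : 1 ≤ x)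
    (hδ0 : 0 ≤ δ) (hp : p < pc (cayley S)) (hbase : Inv S p X₀ g₀) (hdD : ∀ i, d i ≤ D)
    (hdρ : d ρ = D) (hdsucc : ∀ i < ρ, 32 * (d i + 1) ≤ d (i + 1)) (hX : X₀ ≤ d 0)
    (hR₀ : ∀ i, R₀ ≤ d i) (hu : ∀ i, 1024 ≤ (d i : ℝ) * g₀) (hE : 0 < E)
    (hmul : ∀ i, E * x ^ δ ≤ d i)
    (hround : ∀ (D' : ℕ) (G : ℝ), Inv S p D' G → R₀ ≤ D' → D' ≤ D → 0 < G →
      1024 ≤ (D' : ℝ) * G → E ≤ D' →
      (∀ R : ℕ, ApartLe S p (2 ^ D') R
          (C * ((R : ℝ) + 2) * (exp (-H) + (H + 1) ^ 2 * exp (-(D' : ℝ) / 128)))) ∨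
        Inv S p (32 * (D' + 1)) (D' * G / E))
    (hneg : ∀ i, C * ((R : ℝ) + 2) * (exp (-H) + (H + 1) ^ 2 * exp (-(d i : ℝ) / 128)) ≤ ε)
    (hpos : ∀ G, g₀ * x ^ ((ρ : ℝ) * δ) ≤ G → exp (-(D : ℝ) / 64 + (R : ℝ) / G) ≤ ε) :
    ∃ j ≤ D, ApartLe S p (2 ^ j) R ε := by
  have hx0 : 0 < x := by linarith
  have key : ∀ i ≤ ρ, (∃ j ≤ D, ApartLe S p (2 ^ j) R ε)
      ∨ ∃ G, g₀ * x ^ ((i : ℝ) * δ) ≤ G ∧ Inv S p (d i) G := by
    intro i
    induction i with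
    | zero => exact fun _ => Or.inr ⟨g₀, by simp, hbase.mono le_rfl hX⟩
    | succ i ih =>
      intro hi
      rcases ih (by omega) with h | ⟨G, hG, hinv⟩
      · exact Or.inl h
      have hG0 : g₀ ≤ G := le_trans (le_mul_of_one_le_right hg₀.le
        (one_le_rpow hx1 (by positivity))) hG
      have hDG : 1024 ≤ (d i : ℝ) * G :=
        (hu i).trans (mul_le_mul_of_nonneg_left hG0 (Nat.cast_nonneg _))
      have hEd : E ≤ d i := (le_mul_of_one_le_right hE.le (one_le_rpow hx1 hδ0)).trans (hmul i)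
      rcases hround (d i) G hinv (hR₀ i) (hdD i) (hg₀.trans_le hG0) hDG hEd with hn | hp'
      · exact Or.inl ⟨d i, hdD i, (hn R).mono le_rfl (hneg i)⟩
      · refine Or.inr ⟨_, ?_, hp'.mono le_rfl (hdsucc i (by omega))⟩
        rw [le_div_iff₀ hE, Nat.cast_succ, add_mul, one_mul, rpow_add hx0]
        calc g₀ * (x ^ ((i : ℝ) * δ) * x ^ δ) * E
            = g₀ * x ^ ((i : ℝ) * δ) * (E * x ^ δ) := by ring
          _ ≤ G * d i := mul_le_mul hG (hmul i) (by positivity) (by linarith)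
          _ = _ := mul_comm _ _
  rcases key ρ le_rfl with h | ⟨G, hG, hinv⟩
  · exact h
  rw [hdρ] at hinv
  exact ⟨D, le_rfl, (hinv p le_rfl hp D le_rfl R).mono le_rfl (hpos G hG)⟩

/-- If the tail is flat down to scale `D` at `q`, it is flat down to scale `D ^ 2` at any `p`
that is not extremely close to `q`. -/
theorem flat_step (hS : Gens S) [Infinite Γ] (hc : (cayley S).Connected)
    (hpc : pc (cayley S) < 1) {c b : ℝ} (hc0 : 0 < c) (hb : 0 < b)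
    (hgrow : ∀ r : ℕ, 1 ≤ r → exp (c * (r : ℝ) ^ b) ≤ (ball S r).card)
    {α θ₁ : ℝ} (hα : α < 1) (hθ : 0 < θ₁) :
    ∃ D₀ : ℕ, ∀ D ≥ D₀, ∀ q p : ℝ, pc (cayley S) / 2 ≤ q → q < p → p < pc (cayley S) →
      exp (-((D : ℝ) ^ α)) ≤ p - q → θ₁ ≤ tail S q (2 ^ D) →
      tail S q (2 ^ D) - 1 / D ≤ tail S p (2 ^ (D ^ 2)) := by
  set P := pc (cayley S) with hP
  have hP0 : 0 < P := pc_pos hS hc
  obtain ⟨X₀, g₀, hg₀, hbase⟩ := inv_base hS hc hpc
  obtain ⟨C, R₀, hC, hround⟩ := round hS hc hpc hθ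
  set a := max α (1 / 2) with ha
  have ha1 : a < 1 := max_lt hα (by norm_num)
  have ha2 : 1 / 2 ≤ a := le_max_right _ _
  set δ := (1 - a) / 4 with hδ
  have hδ0 : 0 < δ := by rw [hδ]; linarith
  set e := ⌈4 / b⌉₊ with he
  have heb : 4 ≤ (e : ℝ) * b := by
    have := Nat.le_ceil (4 / b)
    rw [← he, div_le_iff₀ hb] at this
    exact this
  set ρ := ⌈((e : ℝ) + 1) / δ⌉₊ with hρ
  have hρδ : (e : ℝ) + 1 ≤ (ρ : ℝ) * δ := by
    have := Nat.le_ceil (((e : ℝ) + 1) / δ)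
    rwa [← hρ, div_le_iff₀ hδ0] at this
  set K := (64 : ℕ) ^ ρ with hK
  have hK0 : (0 : ℝ) < K := by rw [hK]; positivity
  have lim : Tendsto (fun x : ℝ => x / (2 * K)) atTop atTop :=
    tendsto_id.atTop_div_const (by positivity)
  -- everything that holds for large scales
  have E1 : ∀ᶠ x : ℝ in atTop, (R₀ : ℝ) + X₀ + 1 ≤ x / (2 * K) ∧ 1024 / g₀ ≤ x / (2 * K) :=
    (lim.eventually_ge_atTop _).and (lim.eventually_ge_atTop _)
  have E2 : ∀ᶠ x : ℝ in atTop, ((e : ℝ) + 4) * log x + 1 ≤ x ^ δ := by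
    have h := ((isLittleO_log_rpow_atTop hδ0).const_mul_left ((e : ℝ) + 4)).bound
      (show (0 : ℝ) < 1 / 2 by norm_num)
    filter_upwards [h, (tendsto_rpow_atTop hδ0).eventually_ge_atTop 2,
      eventually_ge_atTop (1 : ℝ)] with x h1 h2 h3
    rw [Real.norm_eq_abs, Real.norm_eq_abs, abs_of_nonneg (rpow_nonneg (by linarith) δ)] at h1
    linarith [le_abs_self (((e : ℝ) + 4) * log x)]
  have E3 : ∀ᶠ x : ℝ in atTop, 6 * C * K ≤ x ^ (2 * δ) :=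
    (tendsto_rpow_atTop (by linarith)).eventually_ge_atTop _
  have E4 : ∀ᶠ x : ℝ in atTop,
      16 * C * x ^ (e + 4) * exp (-(1 / (256 * K)) * x ^ (1 : ℝ)) ≤ 1 :=
    eventually_pow_exp _ _ (by positivity) one_pos
  have E5 : ∀ᶠ x : ℝ in atTop, 6 * x ^ 2 * exp (-(1 / 64) * x ^ (1 : ℝ)) ≤ 1 :=
    eventually_pow_exp _ _ (by norm_num) one_pos
  have E6 : ∀ᶠ x : ℝ in atTop, 2 / g₀ ≤ x ∧ 16 * C ≤ x ∧ 8 ≤ x ∧ 2 / c ≤ x :=
    (eventually_ge_atTop _).and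
      ((eventually_ge_atTop _).and ((eventually_ge_atTop _).and (eventually_ge_atTop _)))
  obtain ⟨D₀, hD₀⟩ := eventually_atTop.1 (tendsto_natCast_atTop_atTop.eventually
    (((((E1.and E2).and E3).and E4).and E5).and E6))
  refine ⟨D₀, fun D hD q p hq hqp hp hgap htail => ?_⟩
  obtain ⟨⟨⟨⟨⟨⟨u1, u2⟩, v1⟩, v2⟩, v3⟩, v4⟩, w1, w2, w3, w4⟩ := hD₀ D hD
  rw [rpow_one] at v3 v4
  set x := (D : ℝ) with hx
  have hx1 : 1 ≤ x := by linarith
  have hx0 : 0 < x := by linarith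
  have hq0 : 0 ≤ q := by linarith
  have hp1 : p ≤ 1 := (hp.trans hpc).le
  -- the scales
  set d : ℕ → ℕ := fun i => D / 64 ^ (ρ - i) with hd
  have hdD : ∀ i, d i ≤ D := fun i => Nat.div_le_self _ _
  have h5 : (1 : ℝ) ≤ x / (2 * K) := by
    linarith [Nat.cast_nonneg (α := ℝ) R₀, Nat.cast_nonneg (α := ℝ) X₀]
  have hdlow : ∀ i, x / (2 * K) ≤ (d i : ℝ) := fun i => scale_low h5 i
  have hdsucc : ∀ i < ρ, 32 * (d i + 1) ≤ d (i + 1) := by
    intro i hi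
    have h1 : 64 * d i ≤ d (i + 1) := by
      have e : ρ - i = ρ - (i + 1) + 1 := by omega
      simp only [hd, e, pow_succ, ← Nat.div_div_eq_div_mul]
      exact Nat.mul_div_le _ _
    have h2 : 1 ≤ d i := by
      have : (1 : ℝ) ≤ d i := le_trans (show (1 : ℝ) ≤ x / (2 * K) by
        linarith [Nat.cast_nonneg (α := ℝ) R₀, Nat.cast_nonneg (α := ℝ) X₀]) (hdlow i)
      exact_mod_cast this
    omega
  -- the parameters of a round
  set H := ((e : ℝ) + 4) * log x with hH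
  set Λ := x ^ a with hΛ
  have hH1 : 1 ≤ H := by
    have h1 : 1 ≤ log x := by
      rw [le_log_iff_exp_le hx0]
      linarith [exp_one_lt_d9]
    nlinarith [Nat.cast_nonneg (α := ℝ) e]
  have hgap' : exp (-Λ) ≤ p - q := le_trans
    (exp_le_exp.2 (neg_le_neg (rpow_le_rpow_of_exponent_le hx1 (le_max_left _ _)))) hgap
  set R := D ^ e with hR
  have hRx : (R : ℝ) = x ^ e := by rw [hR, hx]; push_cast; rfl
  have hmul : ∀ i, C * (H + 1) * (H + Λ + 1) * x ^ δ ≤ d i := fun i =>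
    (round_gain hx1 (by linarith) hK0 (by linarith) (by linarith) hδ0.le hδ
      (by rw [hδ]; linarith) v1 v2).trans (hdlow i)
  have hC0 : 0 < C := by linarith
  have hΛ0 : 0 ≤ Λ := rpow_nonneg hx0.le a
  have hE : 0 < C * (H + 1) * (H + Λ + 1) :=
    mul_pos (mul_pos hC0 (by linarith)) (by linarith)
  have hX : X₀ ≤ d 0 := by
    have : (X₀ : ℝ) ≤ d 0 := by linarith [hdlow 0, Nat.cast_nonneg (α := ℝ) R₀]
    exact_mod_cast this
  have hR₀ : ∀ i, R₀ ≤ d i := fun i => by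
    have : (R₀ : ℝ) ≤ d i := by linarith [hdlow i, Nat.cast_nonneg (α := ℝ) X₀]
    exact_mod_cast this
  have hu : ∀ i, 1024 ≤ (d i : ℝ) * g₀ := fun i => by
    rw [div_le_iff₀ hg₀] at u2
    exact u2.trans (mul_le_mul_of_nonneg_right (hdlow i) hg₀.le)
  have hHx : H + 1 ≤ x := v1.trans
    ((rpow_le_rpow_of_exponent_le hx1 (by rw [hδ]; linarith)).trans (rpow_one x).le)
  have hdρ : d ρ = D := by simp [hd]
  have hbase' : Inv S p X₀ g₀ := hbase.mono (by linarith) le_rfl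
  obtain ⟨j, hj, hA⟩ : ∃ j ≤ D, ApartLe S p (2 ^ j) (2 * R) (1 / (2 * x ^ 2)) :=
    run (H := H) d hg₀ hx1 hδ0.le hp hbase' hdD hdρ hdsucc hX hR₀ hu hE hmul
      (fun D' G hi hr hD' hG hDG hE' => hround q p D' D' G H Λ hq hqp hp hi le_rfl hr hG hDG hH1
        hΛ0 hgap' (htail.trans (tail_antitone hS hq0 (hqp.le.trans hp1)
          (Nat.pow_le_pow_right (by norm_num) hD'))) hE')
      (fun i => neg_numeric hx1 hC0 (by linarith) hH hRx hHx hK0 (hdlow i) w2 v3)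
      (fun G hG => pos_numeric hx1 hg₀ hRx hρδ hG w1 v4)
  have hj2 : (2 : ℕ) ^ j ≤ 2 ^ (D ^ 2) :=
    Nat.pow_le_pow_right (by norm_num) (hj.trans (Nat.le_self_pow two_ne_zero D))
  have hmid := mid_le hS (hq0.trans hqp.le) hp1 hj2 hA
  have hV : ((2 ^ (D ^ 2) : ℕ) : ℝ) / (ball S R).card ≤ 1 / (2 * x ^ 2) :=
    volume_numeric hc0 hgrow heb hx1 w4 v4
  have hdiff : tail S p (2 ^ j) - tail S p (2 ^ (D ^ 2)) ≤ 1 / x := by
    have e2 : (1 / x) ^ 2 = 1 / (2 * x ^ 2) + 1 / (2 * x ^ 2) := by field_simp; ring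
    have hsq : (tail S p (2 ^ j) - tail S p (2 ^ (D ^ 2))) ^ 2 ≤ (1 / x) ^ 2 := by linarith
    have hx' : 0 ≤ 1 / x := by positivity
    exact (abs_le.1 (abs_le_of_sq_le_sq hsq hx')).2
  have h7 := tail_antitone (S := S) hS hq0 (hqp.le.trans hp1)
    (Nat.pow_le_pow_right (n := 2) (by norm_num) hj)
  have h8 := tail_mono_param (S := S) hq0 hqp.le hp1 (2 ^ j)
  linarith

end Vale.Agent.P151.Stretched
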