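import Vale.Agent.P151.Growth.Main
import Vale.Agent.P151.Stretched.Flat

/-!
# No percolation at the threshold for every stretched exponential growth
-/

namespace Vale.Agent.P151.Stretched

open Finset Filter Vale.Agent.P165 Vale.Agent.P151.Growth Real

variable {Γ : Type} [Group Γ] [DecidableEq Γ] {S : Finset Γ}

/-- The parameter attached to the scale `L`. -/
noncomputable def pAt (S : Finset Γ) (L : ℕ) : ℝ := pc (cayley S) * (1 - (2 : ℝ)⁻¹ ^ L / 4)

omit [DecidableEq Γ] in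
theorem pAt_bounds (hP : 0 < pc (cayley S)) (L : ℕ) :
    pc (cayley S) / 2 ≤ pAt S L ∧ pAt S L < pc (cayley S) ∧
      pAt S (L + 1) = pAt S L + pc (cayley S) * (2 : ℝ)⁻¹ ^ L / 8 := by
  have h1 : (2 : ℝ)⁻¹ ^ L ≤ 1 := pow_le_one₀ (by norm_num) (by norm_num)
  have h0 : 0 < pc (cayley S) * (2 : ℝ)⁻¹ ^ L := by positivity
  refine ⟨?_, ?_, ?_⟩ <;> unfold pAt
  · linarith [mul_le_mul_of_nonneg_left h1 hP.le]
  · linarith
  · rw [pow_succ]; ring

omit [DecidableEq Γ] in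
theorem pAt_mono (hP : 0 < pc (cayley S)) {L L' : ℕ} (h : L ≤ L') : pAt S L ≤ pAt S L' :=
  mul_le_mul_of_nonneg_left (by
    linarith [pow_le_pow_of_le_one (show (0 : ℝ) ≤ 2⁻¹ by norm_num) (by norm_num) h]) hP.le

/-- Thinning from the threshold keeps most of the tail. -/
theorem tail_pAt (hpc : pc (cayley S) < 1) (hP : 0 < pc (cayley S)) {θ : ℝ} (hθ : 0 ≤ θ)
    (hθn : ∀ n, θ ≤ tail S (pc (cayley S)) n) (L : ℕ) :
    θ * (3 / 4) ≤ tail S (pAt S L) (2 ^ L) := by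
  have h1 : (2 : ℝ)⁻¹ ^ L ≤ 1 := pow_le_one₀ (by norm_num) (by norm_num)
  have h0 : 0 < (2 : ℝ)⁻¹ ^ L := by positivity
  refine le_trans ?_ (tail_thin (p := pc (cayley S)) hP.le hpc.le
    (r := 1 - (2 : ℝ)⁻¹ ^ L / 4) (by linarith) (by linarith) (2 ^ L))
  rw [mul_comm θ]
  refine mul_le_mul ?_ (hθn _) hθ (pow_nonneg (by linarith) _)
  have h := one_add_mul_le_pow (a := -((2 : ℝ)⁻¹ ^ L / 4)) (by linarith) (2 ^ L)
  rw [← sub_eq_add_neg] at h
  refine le_trans (le_of_eq ?_) h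
  push_cast
  rw [inv_pow]
  field_simp
  norm_num

theorem pow_ineq : ∀ (i : ℕ) (x : ℝ), 1 ≤ x → 2 ^ i * (2 * x) ≤ (2 * x) ^ 2 ^ i
  | 0, x, _ => by simp
  | i + 1, x, hx => by
    have h := pow_ineq i x hx
    have h7 : 2 ≤ (2 * x) ^ 2 ^ i :=
      le_trans (by linarith) (le_self_pow₀ (by linarith) (Nat.two_pow_pos i).ne')
    have h2 := mul_le_mul h7 h (by positivity) (by positivity)
    rw [pow_succ, pow_succ 2 i, pow_mul, sq]
    linarith

/-- The tail at `pAt L` has dropped by the scale `L ^ (1 + η)`. -/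
theorem drop (hS : Gens S) [Infinite Γ] (hc : (cayley S).Connected) (hpc : pc (cayley S) < 1)
    {c b : ℝ} (hc0 : 0 < c) (hb : 0 < b)
    (hgrow : ∀ r : ℕ, 1 ≤ r → exp (c * (r : ℝ) ^ b) ≤ ((ball S r).card : ℝ))
    {θ₀ η : ℝ} (hθ : 0 < θ₀) (hη : 0 < η) :
    ∃ L₀ : ℕ, ∀ L ≥ L₀, tail S (pAt S L) (2 ^ ⌈(L : ℝ) ^ (1 + η)⌉₊) < θ₀ := by
  have hP := pc_pos hS hc
  set α := 1 / (1 + η / 2) with hα
  have hα0 : 0 < α := by positivity
  obtain ⟨D₀, hflat⟩ := flat_step (α := α) hS hc hpc hc0 hb hgrow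
    (by rw [hα, div_lt_one (by linarith)]; linarith) (half_pos hθ)
  set κ := (1 + η) * α with hκ
  have hκ1 : 1 < κ := by
    rw [hκ, hα, mul_one_div, one_lt_div (by linarith)]; linarith
  obtain ⟨X, hX⟩ := eventually_atTop.1 ((((tendsto_rpow_atTop
    (show 0 < κ - 1 by linarith)).eventually_ge_atTop 2).and
      (eventually_ge_atTop (log (16 / pc (cayley S))))).and
      ((eventually_ge_atTop (D₀ : ℝ)).and (eventually_ge_atTop (max 2 (8 / θ₀)))))
  refine ⟨⌈X⌉₊, fun L hL => ?_⟩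
  obtain ⟨⟨z1, z2⟩, z3, z4⟩ := hX L (le_trans (Nat.le_ceil X) (by exact_mod_cast hL))
  by_contra hnot
  rw [not_lt] at hnot
  set x := (L : ℝ) with hx
  have hx2 : 2 ≤ x := le_of_max_le_left z4
  set D := ⌈x ^ (1 + η)⌉₊ with hD
  have hDL : x ≤ D := by
    refine le_trans ?_ (Nat.le_ceil _)
    conv_lhs => rw [← rpow_one x]
    exact rpow_le_rpow_of_exponent_le (by linarith) (by linarith)
  have hD2 : 2 ≤ D := by
    have : (2 : ℝ) ≤ D := hx2.trans hDL
    exact_mod_cast this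
  set Dl : ℕ → ℕ := fun i => D ^ 2 ^ i with hDl
  have hDge : ∀ i, 2 ^ i * D ≤ Dl i := by
    intro i
    induction i with
    | zero => simp [hDl]
    | succ i ih =>
      have e : Dl (i + 1) = Dl i * Dl i := by
        simp only [hDl]; rw [← sq, ← pow_mul, pow_succ]
      rw [e, pow_succ, mul_assoc, mul_comm 2, ← mul_assoc]
      exact Nat.mul_le_mul ih (le_trans (hD2.trans (Nat.le_mul_of_pos_left D (Nat.two_pow_pos i))) ih)
  set ε := pc (cayley S) * (2 : ℝ)⁻¹ ^ L / 8 with hε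
  have hε0 : 0 < ε := by positivity
  obtain ⟨hp2, hp1, hpsucc⟩ := pAt_bounds hP L
  have hp1' := (pAt_bounds hP (L + 1)).2.1
  rw [hpsucc, ← hε] at hp1'
  set qi : ℕ → ℝ := fun i => pAt S L + ε * (1 - (2 : ℝ)⁻¹ ^ i) with hqi
  have hhalf : ∀ i : ℕ, 0 < (2 : ℝ)⁻¹ ^ i ∧ (2 : ℝ)⁻¹ ^ i ≤ 1 := fun i =>
    ⟨by positivity, pow_le_one₀ (by norm_num) (by norm_num)⟩
  have hqge : ∀ i, pAt S L ≤ qi i := fun i => by
    simp only [hqi]; linarith [mul_le_mul_of_nonneg_left (hhalf i).2 hε0.le]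
  have hqle : ∀ i, qi i ≤ pAt S L + ε := fun i => by
    simp only [hqi]; linarith [mul_pos hε0 (hhalf i).1]
  have hind : ∀ i, θ₀ - (1 / (D : ℝ)) * (2 - 2 * (2 : ℝ)⁻¹ ^ i)
      ≤ tail S (qi i) (2 ^ Dl i) := by
    intro i
    induction i with
    | zero => simpa [hqi, hDl] using hnot
    | succ i ih =>
      have hd : qi (i + 1) - qi i = ε * (2 : ℝ)⁻¹ ^ i / 2 := by
        simp only [hqi]; rw [pow_succ]; ring
      have hgap : exp (-((Dl i : ℕ) : ℝ) ^ α) ≤ qi (i + 1) - qi i := by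
        have h1 : x ^ κ ≤ (D : ℝ) ^ α := by
          rw [hκ, rpow_mul (by linarith)]
          exact rpow_le_rpow (by positivity) (Nat.le_ceil _) hα0.le
        have h2 : 2 * x ≤ x ^ κ := by
          rw [show κ = κ - 1 + 1 by ring, rpow_add (by linarith), rpow_one]
          exact mul_le_mul_of_nonneg_right z1 (by linarith)
        have h3 : ((Dl i : ℕ) : ℝ) ^ α = ((D : ℝ) ^ α) ^ (2 ^ i) := by
          simp only [hDl]; push_cast
          rw [← rpow_natCast, ← rpow_mul (Nat.cast_nonneg D), mul_comm,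
            rpow_mul (Nat.cast_nonneg D), rpow_natCast]
        have h4 : 2 ^ i * (2 * x) ≤ ((Dl i : ℕ) : ℝ) ^ α := by
          rw [h3]
          refine le_trans ?_ (pow_le_pow_left₀ (by linarith) (h2.trans h1) _)
          exact pow_ineq i x (by linarith)
        have h8 : (i : ℝ) + 1 ≤ 2 ^ i := by exact_mod_cast Nat.lt_two_pow_self
        have h9 : x + log (16 / pc (cayley S)) + i ≤ ((Dl i : ℕ) : ℝ) ^ α := by
          refine le_trans ?_ h4
          linarith [mul_le_mul_of_nonneg_right h8 (show 0 ≤ 2 * x by linarith),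
            mul_le_mul_of_nonneg_left (show 1 ≤ 2 * x by linarith) (Nat.cast_nonneg (α := ℝ) i)]
        rw [hd, hε]
        refine (exp_le_exp.2 (neg_le_neg h9)).trans ?_
        rw [neg_add, neg_add, exp_add, exp_add, exp_neg (log _), exp_log (by positivity)]
        have e2 : ∀ k : ℕ, exp (-(k : ℝ)) ≤ (2 : ℝ)⁻¹ ^ k := fun k => by
          rw [show (-(k : ℝ)) = k * (-1) by ring, exp_nat_mul]
          refine pow_le_pow_left₀ (exp_pos _).le ?_ k
          rw [exp_neg, inv_le_inv₀ (exp_pos _) two_pos]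
          linarith [add_one_le_exp (1 : ℝ)]
        rw [inv_div]
        calc exp (-x) * (pc (cayley S) / 16) * exp (-(i : ℝ))
            ≤ (2 : ℝ)⁻¹ ^ L * (pc (cayley S) / 16) * (2 : ℝ)⁻¹ ^ i :=
              mul_le_mul (mul_le_mul_of_nonneg_right (e2 L) (by positivity)) (e2 i) (exp_pos _).le
                (by positivity)
          _ = _ := by ring
      have hpos : 0 ≤ 1 / (D : ℝ) * (2 : ℝ)⁻¹ ^ i := by positivity
      have hDθ : 1 / (D : ℝ) * 2 ≤ θ₀ / 4 := by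
        have h := (le_of_max_le_right z4).trans hDL
        rw [div_le_iff₀ hθ] at h
        rw [div_mul_eq_mul_div, div_le_iff₀ (by linarith)]
        linarith
      have hDi : D₀ ≤ Dl i := by
        have : (D₀ : ℝ) ≤ D := z3.trans hDL
        exact (by exact_mod_cast this : D₀ ≤ D).trans
          ((Nat.le_mul_of_pos_left D (Nat.two_pow_pos i)).trans (hDge i))
      have hlt : qi i < qi (i + 1) := by
        have := mul_pos hε0 (hhalf i).1
        linarith
      have h := hflat (Dl i) hDi (qi i) (qi (i + 1)) (hp2.trans (hqge i)) hlt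
        ((hqle (i + 1)).trans_lt hp1') hgap (le_trans (by linarith) ih)
      rw [show Dl i ^ 2 = Dl (i + 1) by simp only [hDl]; rw [← pow_mul, pow_succ]] at h
      refine le_trans ?_ h
      have e : 1 / ((Dl i : ℕ) : ℝ) ≤ 1 / (D : ℝ) * (2 : ℝ)⁻¹ ^ i := by
        rw [inv_pow, ← div_eq_mul_inv, div_div]
        refine one_div_le_one_div_of_le (by positivity) ?_
        rw [mul_comm]; exact_mod_cast hDge i
      rw [pow_succ]
      linarith
  have hP1 : 0 < pAt S L + ε := by linarith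
  obtain ⟨N₀, hN₀⟩ := eventually_atTop.1 ((tail_lim hS hc hP1 hp1').eventually
    (eventually_le_nhds (show 0 < θ₀ / 4 by linarith)))
  have hN : N₀ ≤ 2 ^ Dl N₀ := (Nat.lt_two_pow_self).le.trans ((Nat.le_mul_of_pos_right _
    (by omega : 0 < D)).trans ((hDge N₀).trans (Nat.lt_two_pow_self).le))
  have h2 := (hind N₀).trans (tail_mono_param (by linarith [hqge N₀]) (hqle N₀)
    (hp1'.le.trans hpc.le) (2 ^ Dl N₀))
  have h3 : 0 ≤ 1 / (D : ℝ) * (2 : ℝ)⁻¹ ^ N₀ := by positivity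
  have hDθ : 1 / (D : ℝ) * 2 ≤ θ₀ / 4 := by
    have h := (le_of_max_le_right z4).trans hDL
    rw [div_le_iff₀ hθ] at h
    rw [div_mul_eq_mul_div, div_le_iff₀ (by linarith)]
    linarith
  linarith [hN₀ _ hN]

/-- A known exponential bound beats a linear one. -/
theorem exp_margin {C : ℝ} (hC : 0 < C) {ρ y : ℝ} (h : log C ≤ ρ * y) :
    C * exp (-(ρ * y)) ≤ 1 := by
  rw [← exp_log hC, ← exp_add]
  exact exp_le_one_iff.2 (by linarith)

/-- One step of the bootstrap: a longer gluing length at a slightly larger scale. -/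
theorem inv_step (hS : Gens S) [Infinite Γ] (hc : (cayley S).Connected) (hpc : pc (cayley S) < 1)
    {θ η : ℝ} (hθ : 0 < θ) (hθ1 : θ ≤ 1) (hθn : ∀ n, θ ≤ tail S (pc (cayley S)) n) (hη : 0 < η)
    (hdrop : ∃ L₀ : ℕ, ∀ L ≥ L₀,
      tail S (pAt S L) (2 ^ ⌈(L : ℝ) ^ (1 + η)⌉₊) < θ ^ 2 / 8) :
    ∃ L₀ : ℕ, ∀ L ≥ L₀, ∀ G : ℝ, 1024 ≤ L * G → Inv S (pAt S L) L G →
      Inv S (pAt S (32 * (⌈(L : ℝ) ^ (1 + η)⌉₊ + 1))) (32 * (⌈(L : ℝ) ^ (1 + η)⌉₊ + 1))
        (L * G / (1024 * (log (4 / θ ^ 2) + 1))) := by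
  obtain ⟨L₁, hL₁⟩ := hdrop
  have hP := pc_pos hS hc
  set e : ℝ := pc (cayley S) / 2 * (1 - pc (cayley S)) with he
  have he0 : 0 < e := mul_pos (by linarith) (by linarith)
  set a := log (4 / θ ^ 2) + 1 with ha
  have hθ2 : θ ^ 2 ≤ 1 := pow_le_one₀ hθ.le hθ1
  have ha1 : 1 ≤ a := by
    have : 0 ≤ log (4 / θ ^ 2) := log_nonneg (by rw [le_div_iff₀ (by positivity)]; linarith)
    linarith
  have hG0 : 0 < ghostU S := (ghostC_pos (by linarith : 0 < pc (cayley S) / 2)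
    (by linarith)).trans_le (ghostC_le hP hpc le_rfl (by linarith))
  set C₁ : ℝ := 96 * (S.card + 1) * ghostU S / e * exp a with hC₁
  have hC₁0 : 0 < C₁ := by positivity
  set L₂ := ⌈max (128 * log (8 / θ ^ 2)) (100 * log C₁)⌉₊ with hL₂
  refine ⟨max (max L₁ L₂) 2, fun L hL G hLG hInv => ?_⟩
  have hLr : max (128 * log (8 / θ ^ 2)) (100 * log C₁) ≤ L :=
    (Nat.le_ceil _).trans (Nat.cast_le.2 (le_trans (le_trans (le_max_right L₁ L₂)
      (le_max_left _ _)) hL))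
  set D := ⌈(L : ℝ) ^ (1 + η)⌉₊ with hD
  set L' := 32 * (D + 1) with hL'
  have hL0 : 1 ≤ (L : ℝ) := by
    have : 1 ≤ L := by omega
    exact_mod_cast this
  have hDL : L ≤ D := by
    have : (L : ℝ) ≤ D := le_trans (by
      conv_lhs => rw [← rpow_one (L : ℝ)]
      exact rpow_le_rpow_of_exponent_le hL0 (by linarith)) (Nat.le_ceil _)
    exact_mod_cast this
  obtain ⟨hq2, hq1, -⟩ := pAt_bounds hP L
  set q := pAt S L with hq
  have hG : 0 < G := pos_of_mul_pos_right (lt_of_lt_of_le (by norm_num) hLG) (Nat.cast_nonneg L)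
  set s := ⌊(L : ℝ) * G / 512⌋₊ with hs
  have hs1 : (s : ℝ) ≤ L * G / 512 := Nat.floor_le (by positivity)
  have hs2 : (L : ℝ) * G / 1024 ≤ s := by linarith [Nat.lt_floor_add_one ((L : ℝ) * G / 512)]
  have hs0 : (0 : ℝ) < s := lt_of_lt_of_le (by positivity) hs2
  have hwit : ∀ w ∈ ball S s, θ ^ 2 / 4 ≤ capConn S q (2 ^ D) w := by
    intro w hw
    have h := sq_tail_le (N := 2 ^ D) hS (by linarith : (0 : ℝ) ≤ q) (hq1.trans hpc).le
      (hInv q le_rfl hq1 L le_rfl s) hw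
    have h1 := pow_le_pow_left₀ (by positivity) (tail_pAt (S := S) hpc hP hθ.le hθn L) 2
    have h2 : exp (-(L : ℝ) / 64 + s / G) ≤ θ ^ 2 / 8 := by
      have : (s : ℝ) / G ≤ L / 512 := by rw [div_le_iff₀ hG]; linarith
      refine (exp_le_exp.2 (show -(L : ℝ) / 64 + s / G ≤ -log (8 / θ ^ 2) by
        linarith [le_of_max_le_left hLr])).trans (le_of_eq ?_)
      rw [exp_neg, exp_log (by positivity), inv_div]
    have h3 := (hL₁ L (by omega)).le
    rw [← hq, ← hD] at h3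
    nlinarith
  intro p hp hp1 l hl r
  have hqp : q ≤ p := (pAt_mono hP (by omega)).trans hp
  have hp0 : 0 < p := by linarith
  have hp11 : p < 1 := hp1.trans hpc
  have hg := glueErr_le (S := S) (G := ghostU S) (e := e) hp0 hp11 he0
    (mul_le_mul (hq2.trans hqp) (by linarith) (by linarith) hp0.le)
    (ghostC_le hP hpc (hq2.trans hqp) hp1.le) (show 16 * D ≤ l by omega)
  set g := 96 * (S.card + 1) * ghostU S / e * exp (-(l : ℝ) / 25) with hgdef
  set K := ⌈(r : ℝ) / s⌉₊ with hK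
  have hK2 : (K : ℝ) ≤ r / s + 1 := (Nat.ceil_lt_add_one (by positivity)).le
  have hlim := tail_lim hS hc hp0 hp1
  have hmn : 2 * 2 ^ (l / 4) ≤ (2 : ℕ) ^ l := by
    rw [← pow_succ']
    exact Nat.pow_le_pow_right (by norm_num) (by omega)
  have hA0 : ApartLe S p (2 ^ l) 0 0 := apartLe_of_apartAt fun v hv => by
    rw [ball, mem_singleton] at hv
    rw [hv]; exact apartAt_one le_rfl
  have hiter := glue_iter (n := 2 ^ l) (m := 2 ^ (l / 4)) (N := 2 ^ D) (r₀ := 0) (s := s) (A := 0)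
    (δ := θ ^ 2 / 4) (g := g) hS hp0 hp11 (by linarith) hqp hlim Nat.one_le_two_pow hmn le_rfl
    (by positivity) (by linarith) (by positivity) hg hA0 hwit K
  refine hiter.mono ?_ ?_
  · have : (r : ℝ) ≤ ((0 + K * s : ℕ) : ℝ) := by
      push_cast
      rw [zero_add, ← div_le_iff₀ hs0]
      exact Nat.le_ceil _
    exact_mod_cast this
  · have hinv : (θ ^ 2 / 4)⁻¹ ^ K * K ≤ exp ((K : ℝ) * a) := by
      rw [inv_div, ha, mul_add, mul_one, exp_add, exp_nat_mul, exp_log (by positivity)]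
      exact mul_le_mul_of_nonneg_left
        ((le_add_of_nonneg_right zero_le_one).trans (add_one_le_exp _)) (by positivity)
    have hKa : (K : ℝ) * a ≤ r / (L * G / (1024 * a)) + a := by
      refine (mul_le_mul_of_nonneg_right hK2 (by linarith)).trans ?_
      rw [add_mul, one_mul, div_div_eq_mul_div]
      refine add_le_add_left ?_ a
      rw [div_mul_eq_mul_div, div_le_div_iff₀ hs0 (by positivity)]
      linarith [mul_le_mul_of_nonneg_left hs2 (show 0 ≤ (r : ℝ) * a * 1024 by positivity)]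
    have hL'l : (L : ℝ) ≤ l := by
      have : L ≤ l := by omega
      exact_mod_cast this
    have hC : C₁ * exp (-((1 / 25 - 1 / 64) * (l : ℝ))) ≤ 1 :=
      exp_margin hC₁0 (by linarith [le_of_max_le_right hLr])
    calc (θ ^ 2 / 4)⁻¹ ^ K * (0 + K * g) = (θ ^ 2 / 4)⁻¹ ^ K * K * g := by ring
      _ ≤ exp (r / (L * G / (1024 * a)) + a) * g :=
          mul_le_mul_of_nonneg_right (hinv.trans (exp_le_exp.2 hKa)) (by positivity)
      _ = C₁ * exp (-((1 / 25 - 1 / 64) * (l : ℝ)))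
            * exp (-(l : ℝ) / 64 + r / (L * G / (1024 * a))) := by
          have e1 : exp (-((1 / 25 - 1 / 64) * (l : ℝ)))
              * exp (-(l : ℝ) / 64 + r / (L * G / (1024 * a)))
              = exp (-(l : ℝ) / 25) * exp (r / (L * G / (1024 * a))) := by
            rw [← exp_add, ← exp_add]; ring_nf
          rw [hgdef, hC₁, exp_add (r / (L * G / (1024 * a))) a]
          linear_combination -(96 * ((S.card : ℝ) + 1) * ghostU S / e * exp a) * e1
      _ ≤ _ := mul_le_of_le_one_left (exp_pos _).le hC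

/-- The scales of the bootstrap. -/
noncomputable def scale (η : ℝ) (L₀ : ℕ) : ℕ → ℕ
  | 0 => L₀
  | i + 1 => 32 * (⌈(scale η L₀ i : ℝ) ^ (1 + η)⌉₊ + 1)

theorem scale_ge {η : ℝ} (hη : 0 ≤ η) {L₀ : ℕ} (h : 1 ≤ L₀) : ∀ i, L₀ ≤ scale η L₀ i
  | 0 => le_rfl
  | i + 1 => by
    have ih := scale_ge hη h i
    have h1 : (1 : ℝ) ≤ scale η L₀ i := by exact_mod_cast h.trans ih
    have : (scale η L₀ i : ℝ) ≤ ⌈(scale η L₀ i : ℝ) ^ (1 + η)⌉₊ := le_trans (by
      conv_lhs => rw [← rpow_one (scale η L₀ i : ℝ)]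
      exact rpow_le_rpow_of_exponent_le h1 (by linarith)) (Nat.le_ceil _)
    have : scale η L₀ i ≤ ⌈(scale η L₀ i : ℝ) ^ (1 + η)⌉₊ := by exact_mod_cast this
    show L₀ ≤ 32 * (⌈(scale η L₀ i : ℝ) ^ (1 + η)⌉₊ + 1)
    omega

theorem scale_le {η : ℝ} (hη : 0 ≤ η) (hη1 : η ≤ 1) {L₀ : ℕ} (h : 1 ≤ L₀) : ∀ i,
    (scale η L₀ i : ℝ) ≤ (100 : ℝ) ^ (3 ^ i) * (L₀ : ℝ) ^ ((1 + η) ^ i)
  | 0 => by
    rw [pow_zero, pow_zero, rpow_one]
    exact le_mul_of_one_le_left (Nat.cast_nonneg _) (by norm_num)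
  | i + 1 => by
    have ih := scale_le hη hη1 h i
    set x := (scale η L₀ i : ℝ) with hx
    have hx1 : 1 ≤ x := by rw [hx]; exact_mod_cast h.trans (scale_ge hη h i)
    have hy : 1 ≤ x ^ (1 + η) := one_le_rpow hx1 (by linarith)
    have h1 : (scale η L₀ (i + 1) : ℝ) ≤ 100 * x ^ (1 + η) := by
      show ((32 * (⌈x ^ (1 + η)⌉₊ + 1) : ℕ) : ℝ) ≤ _
      push_cast
      linarith [Nat.ceil_lt_add_one (show 0 ≤ x ^ (1 + η) by linarith)]
    refine h1.trans ((mul_le_mul_of_nonneg_left (rpow_le_rpow (by linarith) ih (by linarith))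
      (by norm_num)).trans ?_)
    rw [mul_rpow (by positivity) (by positivity), ← rpow_mul (Nat.cast_nonneg _), ← pow_succ,
      ← mul_assoc]
    refine mul_le_mul_of_nonneg_right ?_ (rpow_nonneg (Nat.cast_nonneg _) _)
    calc (100 : ℝ) * (100 ^ 3 ^ i) ^ (1 + η) ≤ 100 * (100 ^ 3 ^ i) ^ (2 : ℝ) :=
          mul_le_mul_of_nonneg_left (rpow_le_rpow_of_exponent_le (one_le_pow₀ (by norm_num))
            (by linarith)) (by norm_num)
      _ = 100 ^ (2 * 3 ^ i + 1) := by rw [rpow_two, ← pow_mul, pow_succ]; ring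
      _ ≤ _ := pow_le_pow_right₀ (by norm_num) (by
          rw [pow_succ]; have := Nat.one_le_pow i 3 (by norm_num); omega)

/-- The bootstrap, iterated a fixed number of times. -/
theorem inv_iter (hS : Gens S) [Infinite Γ] (hc : (cayley S).Connected) {η κ g0 : ℝ} {L₀ : ℕ}
    (hη : 0 ≤ η) (hκ : 0 < κ) (hg : 0 < g0) (h1 : 1 ≤ L₀) (hκL : 1 ≤ κ * L₀)
    (hLg : 1024 ≤ (L₀ : ℝ) * g0) {X0 : ℕ} (hX : X0 ≤ L₀)
    (hbase : Inv S (pc (cayley S) / 2) X0 g0)
    (hstep : ∀ L ≥ L₀, ∀ G : ℝ, 1024 ≤ L * G → Inv S (pAt S L) L G →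
      Inv S (pAt S (32 * (⌈(L : ℝ) ^ (1 + η)⌉₊ + 1))) (32 * (⌈(L : ℝ) ^ (1 + η)⌉₊ + 1))
        (κ * (L * G))) :
    ∀ i, ∃ G : ℝ, g0 * (κ * L₀) ^ i ≤ G ∧ Inv S (pAt S (scale η L₀ i)) (scale η L₀ i) G
  | 0 => ⟨g0, by simp, hbase.mono (pAt_bounds (pc_pos hS hc) L₀).1 hX⟩
  | i + 1 => by
    obtain ⟨G, hG, hInv⟩ := inv_iter hS hc hη hκ hg h1 hκL hLg hX hbase hstep i
    have hsc := scale_ge (η := η) hη h1 i
    have hsc' : (L₀ : ℝ) ≤ scale η L₀ i := by exact_mod_cast hsc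
    have hg0G : g0 ≤ G := (le_mul_of_one_le_right hg.le (one_le_pow₀ hκL)).trans hG
    refine ⟨κ * (scale η L₀ i * G), ?_, hstep _ hsc G
      (hLg.trans (mul_le_mul hsc' hg0G hg.le (Nat.cast_nonneg _))) hInv⟩
    rw [pow_succ, ← mul_assoc g0]
    calc g0 * (κ * L₀) ^ i * (κ * L₀) ≤ G * (κ * scale η L₀ i) :=
          mul_le_mul hG (mul_le_mul_of_nonneg_left hsc' hκ.le) (by positivity) (by linarith)
      _ = _ := by ring

/-- No percolation at the threshold for stretched exponential growth with any exponent. -/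
theorem no_percolation_of_stretched (hS : Gens S) [Infinite Γ] (hc : (cayley S).Connected)
    (hpc : pc (cayley S) < 1) {c β : ℝ} (hc0 : 0 < c) (hβ : 0 < β)
    (hgrow : ∀ r : ℕ, 1 ≤ r → exp (c * (r : ℝ) ^ β) ≤ ((ball S r).card : ℝ))
    (p : unitInterval) (hp : (p : ℝ) = pc (cayley S)) :
    perc (cayley S) p (hasInfinite (cayley S)) = 0 := by
  have := countable hS hc
  have hP := pc_pos hS hc
  refine no_infinite hS hc p ?_
  rw [hp]
  by_contra hnot
  obtain ⟨θ, hθ, hθn⟩ : ∃ θ : ℝ, 0 < θ ∧ ∀ n, θ ≤ tail S (pc (cayley S)) n := by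
    by_contra hcon
    push Not at hcon
    refine hnot (tendsto_order.2 ⟨fun a ha => Eventually.of_forall fun n =>
      ha.trans_le (tail_nonneg hP.le hpc.le n), fun a ha => ?_⟩)
    obtain ⟨n, hn⟩ := hcon a ha
    exact eventually_atTop.2 ⟨n, fun m hm => (tail_antitone hS hP.le hpc.le hm).trans_lt hn⟩
  have hθ1 : θ ≤ 1 := (hθn 0).trans (tail_le_one hP.le hpc.le 0)
  set b := min β (1 / 2) with hb
  have hb0 : 0 < b := lt_min hβ (by norm_num)
  have hG : Grow S c b := ⟨hc0, hb0, (min_le_right _ _).trans_lt (by norm_num), fun r hr =>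
    le_trans (exp_le_exp.2 (mul_le_mul_of_nonneg_left (rpow_le_rpow_of_exponent_le
      (by exact_mod_cast hr) (min_le_left _ _)) hc0.le)) (hgrow r hr)⟩
  set m := ⌈8 / b⌉₊ + 1 with hm
  set η : ℝ := 1 / (2 * m) with hη
  have hη0 : 0 < η := by positivity
  have hη1 : η ≤ 1 / 2 := by
    rw [hη]
    exact one_div_le_one_div_of_le two_pos (le_mul_of_one_le_right two_pos.le
      (by rw [hm]; exact_mod_cast Nat.le_add_left 1 _))
  have hηm : (1 + η) ^ m ≤ 2 := by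
    refine (pow_le_pow_left₀ (by positivity)
      (show 1 + η ≤ exp η by linarith [add_one_le_exp η]) m).trans ?_
    rw [← exp_nat_mul, ← exp_log two_pos, exp_le_exp, hη]
    have : (m : ℝ) * (1 / (2 * m)) = 1 / 2 := by
      have : (m : ℝ) ≠ 0 := Nat.cast_ne_zero.2 (by omega)
      field_simp
    rw [this]; linarith [log_two_gt_d9]
  obtain ⟨D₀, hdrop⟩ := drop (θ₀ := θ ^ 2 / 8) (η := η) hS hc hpc hc0 hb0 hG.ball_ge
    (by positivity) hη0
  obtain ⟨L₁, hstep⟩ := inv_step hS hc hpc hθ hθ1 hθn hη0 ⟨D₀, hdrop⟩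
  obtain ⟨X0, g0, hg0, hbase⟩ := inv_base hS hc hpc
  set κ := 1 / (1024 * (log (4 / θ ^ 2) + 1)) with hκ
  have ha : 0 < log (4 / θ ^ 2) + 1 := by
    have : 0 ≤ log (4 / θ ^ 2) :=
      log_nonneg (by rw [le_div_iff₀ (by positivity)]; linarith [pow_le_one₀ (n := 2) hθ.le hθ1])
    linarith
  have hκ0 : 0 < κ := by positivity
  set C' := ((100 : ℝ) ^ (3 ^ m)) ^ (4 / b) / (g0 * κ ^ m) with hC'
  obtain ⟨X, hX⟩ := eventually_atTop.1 ((((eventually_ge_atTop C').and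
    (eventually_ge_atTop (1 / κ))).and
      ((eventually_ge_atTop (1024 / g0)).and (eventually_ge_atTop (2 : ℝ)))).and
    (((tendsto_rpow_atTop (show (0 : ℝ) < 4 by norm_num)).eventually_ge_atTop 0).and
      ((eventually_pow_exp (32 * exp 2 / θ ^ 2) 0 (show (0 : ℝ) < 1 / 64 by norm_num) one_pos).and
        ((tendsto_rpow_atTop (show (0 : ℝ) < 2 by norm_num)).eventually_ge_atTop (3 * 2 ^ b / c)))))
  set L₀ := max (max L₁ X0) (max D₀ ⌈X⌉₊) with hL₀
  obtain ⟨⟨⟨x1, x2⟩, x3, x4⟩, -⟩ := hX L₀ ((Nat.le_ceil X).trans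
    (Nat.cast_le.2 ((le_max_right D₀ _).trans (le_max_right _ _))))
  have h1 : 1 ≤ L₀ := by
    have : (1 : ℝ) ≤ L₀ := by linarith
    exact_mod_cast this
  rw [div_le_iff₀ hκ0] at x2
  rw [div_le_iff₀ hg0] at x3
  obtain ⟨G, hGge, hInv⟩ := inv_iter (η := η) (κ := κ) hS hc hη0.le hκ0 hg0 h1
    (by linarith) x3 (le_trans (le_max_right L₁ X0) (le_max_left _ _)) hbase
    (fun L hL G' hLG hI => by
      have := hstep L (le_trans (le_trans (le_max_left L₁ X0) (le_max_left _ _)) hL) G' hLG hI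
      rwa [show κ * ((L : ℝ) * G') = (L : ℝ) * G' / (1024 * (log (4 / θ ^ 2) + 1)) by
        rw [hκ]; ring]) m
  set L := scale η L₀ m with hL
  have hLL : L₀ ≤ L := scale_ge hη0.le h1 m
  obtain ⟨⟨-, -, z4⟩, -, z6, z7⟩ := hX L ((Nat.le_ceil X).trans
    (Nat.cast_le.2 (((le_max_right D₀ _).trans (le_max_right _ _)).trans hLL)))
  rw [rpow_one, pow_zero, mul_one] at z6
  set y := (L : ℝ) with hy
  set z := (L₀ : ℝ) with hz
  have hGy : y ^ (4 / b) ≤ G := by
    have h2 : y ≤ (100 : ℝ) ^ (3 ^ m) * z ^ (2 : ℝ) := by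
      refine (scale_le hη0.le (by linarith) h1 m).trans (mul_le_mul_of_nonneg_left ?_ (by positivity))
      exact rpow_le_rpow_of_exponent_le (by linarith) hηm
    have h3 := rpow_le_rpow (by positivity) h2 (show 0 ≤ 4 / b by positivity)
    rw [mul_rpow (by positivity) (by positivity), ← rpow_mul (by linarith)] at h3
    have h4 : z ^ (2 * (4 / b)) * z ≤ z ^ m := by
      rw [← rpow_natCast z m]
      conv_lhs => rw [← rpow_add_one (by linarith : z ≠ 0)]
      refine rpow_le_rpow_of_exponent_le (by linarith) ?_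
      rw [hm]; push_cast
      linarith [Nat.le_ceil (8 / b), show 2 * (4 / b) = 8 / b by ring]
    rw [hC', div_le_iff₀ (by positivity)] at x1
    refine h3.trans (le_trans ?_ hGge)
    rw [mul_pow]
    calc ((100 : ℝ) ^ 3 ^ m) ^ (4 / b) * z ^ (2 * (4 / b))
        ≤ z * (g0 * κ ^ m) * z ^ (2 * (4 / b)) :=
          mul_le_mul_of_nonneg_right x1 (by positivity)
      _ = g0 * κ ^ m * (z ^ (2 * (4 / b)) * z) := by ring
      _ ≤ g0 * κ ^ m * z ^ m := mul_le_mul_of_nonneg_left h4 (by positivity)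
      _ = _ := by ring
  set v := y ^ (4 / b) with hv
  set R := ⌊v⌋₊ with hR
  have hv1 : 1 ≤ v := one_le_rpow (by linarith) (by positivity)
  have hR1 : 1 ≤ R := Nat.le_floor (by push_cast; linarith)
  have hR2 : v / 2 ≤ R := by
    have h := Nat.lt_floor_add_one v
    have : (1 : ℝ) ≤ R := by exact_mod_cast hR1
    rw [← hR] at h; linarith
  obtain ⟨hq2, hq1, -⟩ := pAt_bounds hP L
  set D := ⌈y ^ (1 + η)⌉₊ with hD
  have hA := hInv (pAt S L) le_rfl hq1 L le_rfl (2 * R)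
  have hG0 : 0 < G := lt_of_lt_of_le (by positivity) hGy
  have hAsmall : exp (-y / 64 + ((2 * R : ℕ) : ℝ) / G) ≤ (θ / 4) ^ 2 / 2 := by
    have : ((2 * R : ℕ) : ℝ) / G ≤ 2 := by
      rw [div_le_iff₀ hG0]; push_cast
      linarith [Nat.floor_le (zero_le_one.trans hv1), hGy]
    refine (exp_le_exp.2 (show -y / 64 + ((2 * R : ℕ) : ℝ) / G ≤ -(1 / 64) * y + 2 by linarith)).trans ?_
    rw [exp_add]
    rw [div_mul_eq_mul_div, div_le_one (by positivity)] at z6
    linarith [show (θ / 4) ^ 2 / 2 = θ ^ 2 / 32 by ring]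
  have hDy : (D : ℝ) ≤ 2 * y ^ (2 : ℝ) := by
    have := Nat.ceil_lt_add_one (show 0 ≤ y ^ (1 + η) by positivity)
    linarith [rpow_le_rpow_of_exponent_le (show (1 : ℝ) ≤ y by linarith)
      (show 1 + η ≤ (2 : ℝ) by linarith), one_le_rpow (show (1 : ℝ) ≤ y by linarith) (show (0 : ℝ) ≤ 2 by norm_num)]
  have hpow : (D : ℝ) + y / 64 ≤ c * (R : ℝ) ^ b := by
    have h := rpow_le_rpow (by positivity) hR2 hb0.le
    rw [div_rpow (by positivity) (by norm_num), hv, ← rpow_mul (by linarith),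
      div_mul_cancel₀ _ hb0.ne', show (4 : ℝ) = 2 + 2 by norm_num, rpow_add (by linarith),
      div_le_iff₀ (by positivity)] at h
    rw [div_le_iff₀ hc0] at z7
    have h2 := mul_le_mul_of_nonneg_left z7 (show 0 ≤ y ^ (2 : ℝ) by positivity)
    have h3 : y ≤ y ^ (2 : ℝ) := by
      conv_lhs => rw [← rpow_one y]
      exact rpow_le_rpow_of_exponent_le (by linarith) one_le_two
    have h4 := mul_le_mul_of_nonneg_left h hc0.le
    refine le_of_mul_le_mul_right ?_ (show 0 < (2 : ℝ) ^ b by positivity)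
    have h5 := mul_le_mul_of_nonneg_right (show (D : ℝ) + y / 64 ≤ 3 * y ^ (2 : ℝ) by linarith)
      (show 0 ≤ (2 : ℝ) ^ b by positivity)
    linarith
  have hnN : 2 ^ L ≤ 2 ^ D := by
    refine Nat.pow_le_pow_right (by norm_num) ?_
    have : y ≤ D := le_trans (by
      conv_lhs => rw [← rpow_one y]
      exact rpow_le_rpow_of_exponent_le (by linarith) (by linarith)) (Nat.le_ceil _)
    rw [hy] at this; exact_mod_cast this
  have hN : ((2 ^ D : ℕ) : ℝ) ≤ exp (D : ℝ) := by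
    rw [pow_two_exp, exp_le_exp]
    exact mul_le_of_le_one_right (Nat.cast_nonneg _) (by linarith [log_two_lt_d9])
  have hV : ((2 ^ D : ℕ) : ℝ) / (ball S R).card ≤ (θ / 4) ^ 2 / 2 := by
    refine (volume_beats hG hR1 hN (b := y / 64) hpow).trans ?_
    rw [div_mul_eq_mul_div, div_le_one (by positivity)] at z6
    rw [show -(y / 64) = -(1 / 64) * y by ring]
    linarith [mul_le_mul_of_nonneg_right (one_le_exp (show (0 : ℝ) ≤ 2 by norm_num))
      (exp_pos (-(1 / 64) * y)).le, show (θ / 4) ^ 2 / 2 = θ ^ 2 / 32 by ring]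
  have h5 := tail_drop (a := θ / 4) hS (by linarith) (hq1.trans hpc).le hnN hA hV hAsmall
    (by linarith)
  have h6 := hdrop L (le_trans (le_trans (le_max_left D₀ _) (le_max_right _ _)) hLL)
  have h7 := tail_pAt (S := S) hpc hP hθ.le hθn L
  rw [← hy, ← hD] at h6
  linarith [pow_le_one₀ (n := 2) hθ.le hθ1, mul_le_of_le_one_left hθ.le hθ1, sq θ]

end Vale.Agent.P151.Stretched
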