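import Vale.Agent.P151.Growth.Defs

/-!
# Stretched exponential growth: definitions

Two clusters are near at cap `N` if both are smaller than `N` and equal or joined by an edge.
-/

namespace Vale.Agent.P151.Stretched

open Finset Filter Vale.Agent.P165 Vale.Agent.P151.Growth Real

variable {Γ : Type} [Group Γ] [DecidableEq Γ] {S : Finset Γ}

variable (S) in
/-- Both clusters have fewer than `N` vertices, and some edge touches both of them. -/
def Near (N : ℕ) (η : Finset (Sym2 Γ)) (u v : Γ) : Prop :=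
  csize η u < N ∧ csize η v < N ∧ ¬Disjoint (touch (nb S) (cls η u)) (touch (nb S) (cls η v))

variable (S) in
/-- The chance that the clusters of `1` and `z` are near. -/
noncomputable def near (q : ℝ) (N : ℕ) (z : Γ) : ℝ :=
  avg (eball S 1 (3 * N + 2)) q fun η => ind (Near S N η 1 z)

variable (S) in
/-- Two large clusters at displacement `v` are apart with probability at most `A`. -/
def ApartAt (p : ℝ) (n : ℕ) (v : Γ) (A : ℝ) : Prop :=
  ∀ T : ℕ, ∀ᶠ M : ℕ in atTop, ∀ u ∈ ball S T,
    avg (eball S 1 M) p (fun η => ind (Apart n η u (u * v))) ≤ A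

variable (S) in
/-- Uniformly from `p` up to the critical value, clusters of size `2 ^ l` at distance `r` are
apart with probability at most `exp (-l / 64 + r / G)`, for all `l ≥ X`. -/
def Inv (p : ℝ) (X : ℕ) (G : ℝ) : Prop :=
  ∀ p' : ℝ, p ≤ p' → p' < pc (cayley S) → ∀ l : ℕ, X ≤ l → ∀ r : ℕ,
    ApartLe S p' (2 ^ l) r (exp (-(l : ℝ) / 64 + r / G))

theorem ApartAt.mono {p : ℝ} {n : ℕ} {v : Γ} {A A' : ℝ} (h : ApartAt S p n v A) (hA : A ≤ A') :
    ApartAt S p n v A' :=
  fun T => (h T).mono fun _ hM u hu => (hM u hu).trans hA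

/-- A vertex is never apart from itself. -/
theorem apartAt_one {p : ℝ} {n : ℕ} {A : ℝ} (hA : 0 ≤ A) : ApartAt S p n 1 A := by
  intro T
  refine Eventually.of_forall fun M u _ => ?_
  rw [avg_congr _ p (g := fun _ => 0) fun η _ => ind_false fun h =>
    h.1 (by rw [mul_one]; exact self_mem_cls η u), avg_const]
  exact hA

/-- Uniformity over finitely many displacements. -/
theorem apartLe_of_apartAt {p : ℝ} {n r : ℕ} {A : ℝ}
    (h : ∀ v ∈ ball S r, ApartAt S p n v A) : ApartLe S p n r A := by
  intro T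
  filter_upwards [(ball S r).eventually_all.2 fun v hv => h v hv T] with M hM u hu x hx
  have := hM _ hx u hu
  rwa [mul_inv_cancel_left] at this

theorem ApartLe.apartAt {p : ℝ} {n r : ℕ} {A : ℝ} (h : ApartLe S p n r A) {v : Γ}
    (hv : v ∈ ball S r) : ApartAt S p n v A :=
  fun T => (h T).mono fun _ hM u hu => hM u hu _ (by rwa [inv_mul_cancel_left])

theorem Inv.mono {p p' : ℝ} {X X' : ℕ} {G : ℝ} (h : Inv S p X G) (hp : p ≤ p') (hX : X ≤ X') :
    Inv S p' X' G :=
  fun q hq hq1 l hl r => h q (hp.trans hq) hq1 l (hX.trans hl) r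

theorem Near.symm {N : ℕ} {η : Finset (Sym2 Γ)} {u v : Γ} (h : Near S N η u v) :
    Near S N η v u :=
  ⟨h.2.1, h.1, fun hd => h.2.2 hd.symm⟩

end Vale.Agent.P151.Stretched
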