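import Vale.Agent.P151.Walk

/-!
# Decay of return probabilities bounds the growth from below
-/

namespace Vale.Agent.P151.Stretched

open Finset Vale.Agent.P165

variable {Γ : Type} [Group Γ] [DecidableEq Γ] {S : Finset Γ}

/-- By Cauchy-Schwarz the ball of radius `r` has at least `1 / p_(2r)` points. -/
theorem one_le_card_mul_step (hS : Gens S) (hne : S.Nonempty) (r : ℕ) :
    1 ≤ ((ball S r).card : ℝ) * step S (2 * r) 1 1 := by
  have hd : (0 : ℝ) < (S.card : ℝ) := Nat.cast_pos.2 (card_pos.2 hne)
  have h1 := walkCount_sum (S := S) r (T := ball S r) (v := 1) fun b hb => by simpa using hb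
  have h2 := walkCount_ball (S := S) r (T := ball S r) (v := 1) (fun b hb => by simpa using hb) r 1
  have hcs := sq_sum_le_card_mul_sum_sq (s := ball S r) (f := fun x => walkCount (nb S) r x 1)
  rw [h1] at hcs
  rw [step, two_mul, h2, ← mul_div_assoc, one_le_div (by positivity), pow_add, ← sq]
  refine hcs.trans (le_of_eq ?_)
  congr 1
  exact sum_congr rfl fun x _ => by rw [walkCount_symm hS r 1 x, sq]

/-- A generating set of an infinite connected Cayley graph is nonempty. -/
theorem nonempty_gens (hS : Gens S) [Infinite Γ] (hc : (cayley S).Connected) : S.Nonempty := by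
  obtain ⟨x, hx⟩ := exists_ne (1 : Γ)
  obtain ⟨w⟩ := hc.preconnected 1 x
  cases w with
  | nil => exact absurd rfl hx
  | cons h _ => exact ⟨_, hS.adj.1 h⟩

/-- Stretched exponential decay of return probabilities gives stretched exponential growth. -/
theorem growth_of_returns (hS : Gens S) [Infinite Γ] (hc : (cayley S).Connected) {c γ : ℝ}
    (hret : ∀ k : ℕ, 1 ≤ k → step S (2 * k) 1 1 ≤ Real.exp (-c * (k : ℝ) ^ γ)) :
    ∀ r : ℕ, 1 ≤ r → Real.exp (c * (r : ℝ) ^ γ) ≤ ((ball S r).card : ℝ) := by
  intro r hr
  have h := (one_le_card_mul_step hS (nonempty_gens hS hc) r).trans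
    (mul_le_mul_of_nonneg_left (hret r hr) (Nat.cast_nonneg _))
  rw [neg_mul, Real.exp_neg, ← div_eq_mul_inv, one_le_div (Real.exp_pos _)] at h
  exact h

end Vale.Agent.P151.Stretched
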